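import Mathlib
import Vale.Agent.P087.Gap

/-!
# P087: linearity of expansions with gaps
-/

namespace VAgent.P087

noncomputable section

variable {α : Type*} (M : List α → ℂ)

theorem gapExp_eq (F : List α → ℂ) (w : List α) :
    gapExp M F w = F [] * M w + ∑ q : Fin w.length,
      M (w.take q) * gapExp M (fun S => F (w.get q :: S)) (w.drop (q + 1)) := by
  rw [gapExp]

theorem gapExp_zero_fun (w : List α) : gapExp M (fun _ => 0) w = 0 := by
  induction h : w.length using Nat.strong_induction_on generalizing w with
  | _ N ih =>
    rw [gapExp_eq, zero_mul, zero_add]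
    refine Finset.sum_eq_zero fun q _ => ?_
    have := q.isLt
    rw [ih _ (by rw [List.length_drop]; omega) (w.drop (q + 1)) rfl, mul_zero]

theorem gapExp_add (F G : List α → ℂ) (w : List α) :
    gapExp M (fun S => F S + G S) w = gapExp M F w + gapExp M G w := by
  induction h : w.length using Nat.strong_induction_on generalizing w F G with
  | _ N ih =>
    rw [gapExp_eq, gapExp_eq M F, gapExp_eq M G]
    have e : ∀ q : Fin w.length, gapExp M (fun S => F (w.get q :: S) + G (w.get q :: S))
        (w.drop (q + 1)) = gapExp M (fun S => F (w.get q :: S)) (w.drop (q + 1))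
          + gapExp M (fun S => G (w.get q :: S)) (w.drop (q + 1)) := fun q => by
      have := q.isLt
      exact ih _ (by rw [List.length_drop]; omega) _ _ _ rfl
    simp only [e, mul_add, Finset.sum_add_distrib]
    ring

theorem gapExp_smul (c : ℂ) (F : List α → ℂ) (w : List α) :
    gapExp M (fun S => c * F S) w = c * gapExp M F w := by
  induction h : w.length using Nat.strong_induction_on generalizing w F with
  | _ N ih =>
    rw [gapExp_eq, gapExp_eq M F, mul_add, Finset.mul_sum, mul_assoc]
    refine congrArg _ (Finset.sum_congr rfl fun q _ => ?_)
    have := q.isLt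
    rw [ih _ (by rw [List.length_drop]; omega) _ _ rfl]
    ring

theorem gapExp_finsetSum {β : Type*} (s : Finset β) (F : β → List α → ℂ) (w : List α) :
    gapExp M (fun S => ∑ b ∈ s, F b S) w = ∑ b ∈ s, gapExp M (F b) w := by
  classical
  induction s using Finset.induction_on with
  | empty => simp [gapExp_zero_fun]
  | insert b s hb ih => simp only [Finset.sum_insert hb, gapExp_add, ih]

theorem gapExp_congr {F G : List α → ℂ} {w : List α}
    (h : ∀ S : List α, S.length ≤ w.length → F S = G S) : gapExp M F w = gapExp M G w := by
  induction hn : w.length using Nat.strong_induction_on generalizing w F G with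
  | _ N ih =>
    rw [gapExp_eq, gapExp_eq M G, h [] (by simp)]
    refine congrArg _ (Finset.sum_congr rfl fun q _ => ?_)
    have := q.isLt
    rw [ih (w.drop (q + 1)).length (by rw [List.length_drop]; omega) (w := w.drop (q + 1))
      (F := fun S => F (w.get q :: S)) (G := fun S => G (w.get q :: S))
      (fun S hS => h _ (by rw [List.length_drop] at hS; simp only [List.length_cons]; omega)) rfl]

end

end VAgent.P087
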