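import Mathlib
import Vale.Agent.P087.Matrices

/-!
# P087: linear form of the Schwinger-Dyson rule
-/

namespace VAgent.P087

noncomputable section

variable {J : Type} [DecidableEq J]

/-- A monomial. -/
def mon (l : List (Letter J)) : Poly J := MonoidAlgebra.single (FreeMonoid.ofList l) 1

theorem mon_append (a b : List (Letter J)) : mon (a ++ b) = mon a * mon b := by
  simp [mon, MonoidAlgebra.single_mul_single]

theorem mon_nil : mon ([] : List (Letter J)) = 1 := rfl

theorem letterPoly_eq (a : Letter J) : letterPoly a = mon [a] := rfl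

theorem mon_cons (a : Letter J) (b : List (Letter J)) : mon (a :: b) = letterPoly a * mon b :=
  mon_append [a] b

theorem tauL_mon (l : List (Letter J)) : tauL (mon l) = tau l := by
  have e : mon l = MonoidAlgebra.basis (FreeMonoid (Letter J)) ℂ (FreeMonoid.ofList l) := by
    simp [mon, MonoidAlgebra.basis_apply]
  rw [e, tauL, Module.Basis.constr_basis]
  rfl

/-- Linear maps agree if they agree on monomials. -/
theorem poly_ext {V : Type*} [AddCommGroup V] [Module ℂ V] {f g : Poly J →ₗ[ℂ] V}
    (h : ∀ l, f (mon l) = g (mon l)) : f = g := by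
  refine (MonoidAlgebra.basis (FreeMonoid (Letter J)) ℂ).ext fun w => ?_
  simpa [mon, MonoidAlgebra.basis_apply] using h (FreeMonoid.toList w)

theorem tauL_one : tauL (1 : Poly J) = 1 := by
  rw [← mon_nil, tauL_mon, tau]
  simp [charge]

theorem tau_cons_inr (j : J) (w : List (Letter J)) :
    tau (Sum.inr j :: w) = ∑ q : Fin w.length, if w.get q = Sum.inr j then
      tau (w.take q) * tau (w.drop (q + 1)) else 0 := by
  rw [tau]
  have h : ∃ l : Fin (Sum.inr j :: w : List (Letter J)).length,
      ((Sum.inr j :: w : List (Letter J)).get l).isRight :=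
    ⟨⟨0, by simp⟩, rfl⟩
  rw [dif_pos h]
  have hl : Fin.find (p := fun l : Fin (Sum.inr j :: w : List (Letter J)).length =>
      ((Sum.inr j :: w : List (Letter J)).get l).isRight = true) h = ⟨0, by simp⟩ := by
    rw [Fin.find_eq_iff]
    exact ⟨rfl, fun l hl => absurd hl (by simp [Fin.lt_def])⟩
  show (∑ q, _) = _
  rw [hl]
  have key : ∀ v : List (Letter J), v = w → (∑ q : Fin v.length, if v.get q = Sum.inr j then
      tau (v.take q) * tau (v.drop (q + 1)) else 0) = ∑ q : Fin w.length, if w.get q = Sum.inr j then
      tau (w.take q) * tau (w.drop (q + 1)) else 0 := by rintro v rfl; rfl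
  exact key _ (by simp)

/-- `∑` over the occurrences `q` of `G j` in the middle argument of
`τ (A * left) * τ (right * B)`. -/
def split (j : J) : Poly J →ₗ[ℂ] Poly J →ₗ[ℂ] Poly J →ₗ[ℂ] ℂ :=
  (MonoidAlgebra.basis (FreeMonoid (Letter J)) ℂ).constr ℂ fun a =>
    (MonoidAlgebra.basis (FreeMonoid (Letter J)) ℂ).constr ℂ fun p =>
      (MonoidAlgebra.basis (FreeMonoid (Letter J)) ℂ).constr ℂ fun b =>
        ∑ q : Fin (FreeMonoid.toList p).length,
          if (FreeMonoid.toList p).get q = Sum.inr j then
            tau (FreeMonoid.toList a ++ (FreeMonoid.toList p).take q) *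
              tau ((FreeMonoid.toList p).drop (q + 1) ++ FreeMonoid.toList b) else 0

theorem split_mon (j : J) (a p b : List (Letter J)) :
    split j (mon a) (mon p) (mon b) = ∑ q : Fin p.length, if p.get q = Sum.inr j then
      tau (a ++ p.take q) * tau (p.drop (q + 1) ++ b) else 0 := by
  have e : ∀ l : List (Letter J), mon l =
      MonoidAlgebra.basis (FreeMonoid (Letter J)) ℂ (FreeMonoid.ofList l) := fun l => by
    simp [mon, MonoidAlgebra.basis_apply]
  rw [e, e, e, split, Module.Basis.constr_basis, Module.Basis.constr_basis,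
    Module.Basis.constr_basis]
  rfl

theorem split_one (j : J) (A B : Poly J) : split j A 1 B = 0 := by
  have h : ∀ a b : List (Letter J), split j (mon a) 1 (mon b) = 0 := fun a b => by
    rw [← mon_nil, split_mon]; simp
  have h1 : ∀ a : List (Letter J), split j (mon a) 1 = 0 := fun a => poly_ext (by simpa using h a)
  have h2 : (split j).flip 1 = 0 := poly_ext (by simpa using h1)
  simpa using LinearMap.congr_fun (LinearMap.congr_fun h2 A) B

/-- Extensionality for trilinear forms. -/
theorem poly_ext₃ {f g : Poly J →ₗ[ℂ] Poly J →ₗ[ℂ] Poly J →ₗ[ℂ] ℂ}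
    (h : ∀ a p b, f (mon a) (mon p) (mon b) = g (mon a) (mon p) (mon b)) (A P B : Poly J) :
    f A P B = g A P B := by
  have : f = g := poly_ext fun a => poly_ext fun p => poly_ext fun b => h a p b
  rw [this]

theorem split_add_mon (j : J) (a p q b : List (Letter J)) :
    split j (mon a) (mon (p ++ q)) (mon b) =
      split j (mon a) (mon p) (mon (q ++ b)) + split j (mon (a ++ p)) (mon q) (mon b) := by
  rw [split_mon, split_mon, split_mon]
  rw [← Fintype.sum_equiv (finCongr (by simp : p.length + q.length = (p ++ q).length)) _ _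
    (fun _ => rfl), Fin.sum_univ_add]
  congr 1
  · refine Finset.sum_congr rfl fun i _ => ?_
    have hi := i.isLt
    simp [List.getElem_append_left hi, List.take_append_of_le_length hi.le,
      List.drop_append_of_le_length (by omega : (i : ℕ) + 1 ≤ p.length)]
  · refine Finset.sum_congr rfl fun i _ => ?_
    simp [List.getElem_append_right, List.take_append, List.drop_append,
      List.take_of_length_le, List.drop_eq_nil_of_le, add_assoc]

theorem split_mul (j : J) (A P Q B : Poly J) :
    split j A (P * Q) B = split j A P (Q * B) + split j (A * P) Q B := by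
  have key : ∀ p q : List (Letter J), ∀ A B : Poly J,
      split j A (mon p * mon q) B = split j A (mon p) (mon q * B) + split j (A * mon p) (mon q) B := by
    intro p q A B
    let f₁ : Poly J →ₗ[ℂ] Poly J →ₗ[ℂ] ℂ := (split j).flip (mon p * mon q)
    let f₂ : Poly J →ₗ[ℂ] Poly J →ₗ[ℂ] ℂ :=
      ((split j).flip (mon p)).compl₂ (LinearMap.mulLeft ℂ (mon q)) +
        ((split j).flip (mon q)).comp (LinearMap.mulRight ℂ (mon p))
    have : f₁ = f₂ := poly_ext fun a => poly_ext fun b => by
      simpa [f₁, f₂, mon_append] using split_add_mon j a p q b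
    simpa [f₁, f₂] using LinearMap.congr_fun (LinearMap.congr_fun this A) B
  induction P using MonoidAlgebra.induction_linear with
  | zero => simp
  | add P P' h h' =>
    simp only [add_mul, map_add, LinearMap.add_apply, mul_add, h, h']
    abel
  | single p c =>
    induction Q using MonoidAlgebra.induction_linear with
    | zero => simp
    | add Q Q' h h' =>
      simp only [mul_add, add_mul, map_add, LinearMap.add_apply, h, h']
      abel
    | single q d =>
      have hp : MonoidAlgebra.single p c = c • mon (FreeMonoid.toList p) := by simp [mon]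
      have hq : MonoidAlgebra.single q d = d • mon (FreeMonoid.toList q) := by simp [mon]
      simp only [hp, hq, smul_mul_assoc, mul_smul_comm, map_smul, LinearMap.smul_apply,
        key, smul_add]

theorem split_letter_same (j : J) (A B : Poly J) :
    split j A (polyG j) B = tauL A * tauL B := by
  let f₁ : Poly J →ₗ[ℂ] Poly J →ₗ[ℂ] ℂ := (split j).flip (polyG j)
  let f₂ : Poly J →ₗ[ℂ] Poly J →ₗ[ℂ] ℂ := (LinearMap.mul ℂ ℂ).compl₁₂ tauL tauL
  have : f₁ = f₂ := poly_ext fun a => poly_ext fun b => by
    simp [f₁, f₂, polyG, letterPoly_eq, split_mon, tauL_mon]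
  simpa [f₁, f₂] using LinearMap.congr_fun (LinearMap.congr_fun this A) B

theorem split_letter_ne (j : J) {x : Letter J} (hx : x ≠ Sum.inr j) (A B : Poly J) :
    split j A (letterPoly x) B = 0 := by
  have : (split j).flip (letterPoly x) = 0 := poly_ext fun a => poly_ext fun b => by
    simp [letterPoly_eq, split_mon, hx]
  simpa using LinearMap.congr_fun (LinearMap.congr_fun this A) B

/-- Schwinger-Dyson. -/
theorem tauL_polyG_mul (j : J) (P : Poly J) : tauL (polyG j * P) = split j 1 P 1 := by
  have : tauL.comp (LinearMap.mulLeft ℂ (polyG j)) =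
      ((split j 1).flip 1) := poly_ext fun p => by
    simp only [LinearMap.comp_apply, LinearMap.mulLeft_apply, LinearMap.flip_apply, polyG,
      letterPoly_eq, ← mon_nil, ← mon_append, tauL_mon, split_mon, List.singleton_append,
      tau_cons_inr, List.nil_append, List.append_nil]
  simpa using LinearMap.congr_fun this P

theorem tauL_mul_comm [Fintype J] (P Q : Poly J) : tauL (P * Q) = tauL (Q * P) := by
  let f₁ : Poly J →ₗ[ℂ] Poly J →ₗ[ℂ] ℂ := (LinearMap.mul ℂ (Poly J)).compr₂ tauL
  have : f₁ = f₁.flip := poly_ext fun a => poly_ext fun b => by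
    simp [f₁, ← mon_append, tauL_mon, tau_cyclic]
  simpa [f₁] using LinearMap.congr_fun (LinearMap.congr_fun this P) Q

end

end VAgent.P087
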