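import Mathlib
import Vale.Agent.P087.Star.SD

/-!
# P087: the involution on the model and the Cauchy-Schwarz inequality
-/

namespace VAgent.P087

open scoped ComplexConjugate

noncomputable section

variable {J : Type} [DecidableEq J]

/-- The adjoint. -/
def adj : Poly J →ₛₗ[starRingEnd ℂ] Poly J where
  toFun P := P.coeff.sum fun w c => conj c • mon (adjWord (FreeMonoid.toList w))
  map_add' P Q := by
    rw [MonoidAlgebra.coeff_add]
    exact Finsupp.sum_add_index' (fun _ => by simp) (fun _ _ _ => by simp [add_smul])
  map_smul' c P := by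
    rw [MonoidAlgebra.coeff_smul, Finsupp.sum_smul_index' (fun _ => by simp), Finsupp.smul_sum]
    simp [smul_smul]

theorem adj_mon (l : List (Letter J)) : adj (mon l) = mon (adjWord l) := by
  simp [adj, mon, Finsupp.sum_single_index]

theorem adj_smul (c : ℂ) (P : Poly J) : adj (c • P) = conj c • adj P := adj.map_smulₛₗ c P

theorem adjWord_append (a b : List (Letter J)) : adjWord (a ++ b) = adjWord b ++ adjWord a := by
  simp [adjWord]

theorem single_eq_smul_mon (p : FreeMonoid (Letter J)) (c : ℂ) :
    (MonoidAlgebra.single p c : Poly J) = c • mon (FreeMonoid.toList p) := by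
  simp [mon]

theorem adj_mul (P Q : Poly J) : adj (P * Q) = adj Q * adj P := by
  induction P using MonoidAlgebra.induction_linear with
  | zero => simp
  | add P P' h h' => simp [add_mul, mul_add, h, h']
  | single p c =>
    induction Q using MonoidAlgebra.induction_linear with
    | zero => simp
    | add Q Q' h h' => simp [mul_add, add_mul, h, h']
    | single q d =>
      simp only [single_eq_smul_mon, smul_mul_assoc, mul_smul_comm, LinearMap.map_smulₛₗ,
        adj_mon, smul_smul]
      rw [← mon_append, adj_mon, adjWord_append, mon_append, map_mul, mul_comm (starRingEnd ℂ d)]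

theorem adj_one : adj (1 : Poly J) = 1 := by rw [← mon_nil, adj_mon]; rfl

theorem adj_adj (P : Poly J) : adj (adj P) = P := by
  induction P using MonoidAlgebra.induction_linear with
  | zero => simp
  | add P P' h h' => simp [h, h']
  | single p c =>
    simp only [single_eq_smul_mon, LinearMap.map_smulₛₗ, adj_mon, Complex.conj_conj]
    congr 2
    have h : (Sum.map (fun k : ℤ => -k) id ∘ Sum.map (fun k : ℤ => -k) id :
        Letter J → Letter J) = id := funext fun a => by rcases a with k | j <;> simp
    simp [adjWord, List.map_reverse, List.map_map, h]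

theorem adj_polyU (k : ℤ) : adj (polyU k : Poly J) = polyU (-k) := by
  simp [polyU, letterPoly_eq, adj_mon, adjWord]

theorem adj_polyG (j : J) : adj (polyG j : Poly J) = polyG j := by
  simp [polyG, letterPoly_eq, adj_mon, adjWord]

theorem adj_prod (l : List (Poly J)) : adj l.prod = (l.map adj).reverse.prod := by
  induction l with
  | nil => simp [adj_one]
  | cons a l ih => simp [adj_mul, ih]

variable [Fintype J]

theorem tauL_adj (P : Poly J) : tauL (adj P) = conj (tauL P) := by
  induction P using MonoidAlgebra.induction_linear with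
  | zero => simp
  | add P P' h h' => simp [h, h']
  | single p c =>
    rw [single_eq_smul_mon, LinearMap.map_smulₛₗ, adj_mon, map_smul, map_smul, tauL_mon, tauL_mon,
      tau_adjWord, smul_eq_mul, smul_eq_mul, map_mul]

theorem tauL_adj_mul_self_nonneg (P : Poly J) : 0 ≤ (tauL (adj P * P)).re := by
  let Q : List (Letter J) →₀ ℂ := P.coeff.mapDomain FreeMonoid.toList
  have hinj : Function.Injective (FreeMonoid.toList : FreeMonoid (Letter J) → List (Letter J)) :=
    FreeMonoid.toList.injective
  have hP : P = ∑ w ∈ Q.support, Q w • mon w := by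
    conv_lhs => rw [← MonoidAlgebra.sum_coeff_single P]
    change P.coeff.sum _ = Q.sum fun w c => c • mon w
    rw [Finsupp.sum_mapDomain_index (fun _ => by simp) (fun _ _ _ => by simp [add_smul])]
    exact Finsupp.sum_congr fun w _ => single_eq_smul_mon _ _
  convert tau_positive Q using 2
  conv_lhs => rw [hP]
  simp only [map_sum, Finset.sum_mul, Finset.mul_sum, LinearMap.map_smulₛₗ, adj_mon,
    smul_mul_assoc, mul_smul_comm, ← mon_append, map_smul, tauL_mon, smul_eq_mul]
  rw [Finset.sum_comm]
  exact Finset.sum_congr rfl fun v _ => Finset.sum_congr rfl fun w _ => by ring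

theorem tauL_cauchy_schwarz (P Q : Poly J) :
    ‖tauL (adj P * Q)‖ ^ 2 ≤ (tauL (adj P * P)).re * (tauL (adj Q * Q)).re := by
  set a := (tauL (adj P * P)).re
  set z := tauL (adj P * Q) with hz
  set b := (tauL (adj Q * Q)).re
  have hz' : tauL (adj Q * P) = conj z := by
    rw [hz, ← tauL_adj, adj_mul, adj_adj]
  have key : ∀ r : ℝ, 0 ≤ ‖z‖ ^ 2 * a * (r * r) + 2 * ‖z‖ ^ 2 * r + b := by
    intro r
    have h := tauL_adj_mul_self_nonneg (((r : ℂ) * z) • P + Q)
    simp only [map_add, LinearMap.map_smulₛₗ, add_mul, mul_add, smul_mul_assoc, mul_smul_comm,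
      smul_add, smul_smul, map_smul, smul_eq_mul, map_mul, Complex.conj_ofReal, hz', ← hz] at h
    convert h using 1
    simp only [Complex.add_re, Complex.mul_re, Complex.mul_im, Complex.ofReal_re, Complex.ofReal_im,
      Complex.conj_re, Complex.conj_im, a, b]
    rw [Complex.sq_norm, Complex.normSq_apply]
    ring
  have hd := discrim_le_zero key
  rw [discrim] at hd
  rcases eq_or_lt_of_le (sq_nonneg ‖z‖) with h0 | h0
  · rw [← h0]
    exact mul_nonneg (tauL_adj_mul_self_nonneg P) (tauL_adj_mul_self_nonneg Q)
  · exact le_of_mul_le_mul_left (by nlinarith) h0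

end

end VAgent.P087
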