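import Mathlib
import Vale.Agent.P087.Star.SD

/-!
# P087: adding semicirculars to the law of the model
-/

namespace VAgent.P087

noncomputable section

variable {J : Type} [DecidableEq J]

theorem tauL_mon_mul_comm [Fintype J] (A B C : Poly J) :
    tauL (A * B * C) = tauL (B * (C * A)) := by
  rw [mul_assoc, tauL_mul_comm, mul_assoc]

/-- `split` of a product of substituted letters. -/
theorem split_prod {α : Type*} (j : J) (φ : α → Poly J) (c : α → ℂ) (L R : α → Poly J)
    (h : ∀ a A B, split j A (φ a) B = c a * (tauL (A * L a) * tauL (R a * B)))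
    (w : List α) (A B : Poly J) :
    split j A (w.map φ).prod B = ∑ q : Fin w.length,
      c (w.get q) * (tauL (A * ((w.take q).map φ).prod * L (w.get q)) *
        tauL (R (w.get q) * (((w.drop (q + 1)).map φ).prod * B))) := by
  induction w generalizing A with
  | nil => simp [split_one]
  | cons a w ih =>
    rw [List.map_cons, List.prod_cons, split_mul, h, ih]
    simp [Fin.sum_univ_succ, mul_assoc]

variable (p : Params)

theorem Params.Y_zero (j : Fin (2 + p.n)) :
    p.Y 0 j = p.base j + (Real.sqrt (p.v j) : ℂ) • polyG (Sum.inl (j, false)) := by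
  simp [Params.Y]

theorem Params.split_base_noise (x : Fin (2 + p.n) × Bool) (k : Fin (2 + p.n))
    (A B : Poly p.Noise) : split (Sum.inl x) A (p.base k) B = 0 := by
  unfold Params.base
  induction k using Fin.addCases with
  | left i =>
    rw [Fin.addCases_left]
    split_ifs <;> simp [polyU, map_add, split_letter_ne]
  | right e =>
    rw [Fin.addCases_right]
    simp [polyU, polyG, split_mul, split_letter_ne]

theorem Params.split_Y_noise (t : ℝ) (x : Fin (2 + p.n) × Bool) (k : Fin (2 + p.n))
    (A B : Poly p.Noise) : split (Sum.inl x) A (p.Y t k) B =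
      (if k = x.1 then (if x.2 then (Real.sqrt t : ℂ) else (Real.sqrt (p.v k) : ℂ)) else 0) *
        (tauL A * tauL B) := by
  obtain ⟨i, b⟩ := x
  simp only [Params.Y, map_add, LinearMap.add_apply, map_smul, LinearMap.smul_apply,
    p.split_base_noise, smul_eq_mul, zero_add]
  by_cases hk : k = i
  · subst hk
    cases b
    · simp [split_letter_same, show split (Sum.inl (k, false)) A (polyG (Sum.inl (k, true) : p.Noise)) B = 0
        from split_letter_ne _ (by simp) A B]
    · simp [split_letter_same, show split (Sum.inl (k, true)) A (polyG (Sum.inl (k, false) : p.Noise)) B = 0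
        from split_letter_ne _ (by simp) A B]
  · have h1 : ∀ b', split (Sum.inl (i, b)) A (polyG (Sum.inl (k, b') : p.Noise)) B = 0 := fun b' =>
      split_letter_ne _ (by simp [hk]) A B
    simp [h1, hk]

/-- The tuple and the added semicirculars. -/
def Params.pairPoly : Fin (2 + p.n) ⊕ Fin (2 + p.n) → Poly p.Noise :=
  Sum.elim (p.Y 0) fun j => polyG (Sum.inl (j, true))

theorem Params.split_pairPoly (i : Fin (2 + p.n)) (a : Fin (2 + p.n) ⊕ Fin (2 + p.n))
    (A B : Poly p.Noise) : split (Sum.inl (i, true)) A (p.pairPoly a) B =
      (if a = Sum.inr i then (1 : ℂ) else 0) * (tauL A * tauL B) := by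
  rcases a with k | k
  · simp [Params.pairPoly, p.split_Y_noise, Real.sqrt_zero]
  · by_cases hk : k = i
    · subst hk
      simp [Params.pairPoly, split_letter_same]
    · simp [Params.pairPoly, hk, show split (Sum.inl (i, true)) A (polyG (Sum.inl (k, true) : p.Noise)) B = 0
        from split_letter_ne _ (by simp [hk]) A B]

theorem Params.mixedMoment_law (W : List (Fin (2 + p.n) ⊕ Fin (2 + p.n))) :
    mixedMoment (p.law 0) W = tauL (W.map p.pairPoly).prod := by
  induction h : W.length using Nat.strong_induction_on generalizing W with
  | _ N ih =>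
    rw [mixedMoment]
    split_ifs with hr
    · set l := Fin.find (p := fun l : Fin W.length => (W.get l).isRight = true) hr
      set v := W.drop (l + 1) ++ W.take l with hv
      obtain ⟨i, hi⟩ : ∃ i, W.get l = Sum.inr i :=
        Sum.isRight_iff.1 (Fin.find_spec (p := fun l : Fin W.length => (W.get l).isRight = true) hr)
      have hrot : tauL (W.map p.pairPoly).prod =
          tauL (polyG (Sum.inl (i, true)) * (v.map p.pairPoly).prod) := by
        conv_lhs => rw [← List.take_append_drop l W]
        rw [List.drop_eq_getElem_cons l.isLt]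
        simp only [List.map_append, List.map_cons, List.prod_append, List.prod_cons, hv]
        rw [tauL_mul_comm, mul_assoc]
        rw [show W[(l : ℕ)] = Sum.inr i from hi]
        rfl
      rw [hrot, tauL_polyG_mul, split_prod _ _ (fun a => if a = Sum.inr i then 1 else 0)
        (fun _ => 1) (fun _ => 1) (fun a A B => by simpa using p.split_pairPoly i a A B)]
      have hlen : v.length < N := by
        have := l.isLt
        simp only [hv, List.length_append, List.length_take, List.length_drop]
        omega
      refine Finset.sum_congr rfl fun q _ => ?_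
      rw [hi]
      by_cases hq : v.get q = Sum.inr i
      · rw [if_pos hq, ih _ (lt_of_le_of_lt (List.length_take_le' q v) hlen) _ rfl,
          ih _ (lt_of_le_of_lt (by rw [List.length_drop]; exact Nat.sub_le _ _) hlen) _ rfl]
        simp [v] at hq ⊢
        simp [hq]
      · rw [if_neg hq]
        simp [v] at hq ⊢
        simp [hq]
    · simp only [Params.law]
      congr 2
      rw [List.map_map]
      refine List.map_congr_left fun a ha => ?_
      rcases a with k | k
      · rfl
      · obtain ⟨n, hn, hn'⟩ := List.getElem_of_mem ha
        exact (hr ⟨⟨n, hn⟩, by simp [hn']⟩).elim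

/-- Expansion of a product of sums. -/
theorem prod_map_add {R α : Type*} [Semiring R] (a b : α → R) (w : List α) :
    (w.map fun x => a x + b x).prod =
      ∑ c : Fin w.length → Bool,
        (List.ofFn fun l => if c l then b (w.get l) else a (w.get l)).prod := by
  induction w with
  | nil => simp
  | cons x w ih =>
    rw [List.map_cons, List.prod_cons, ih, add_mul, Finset.mul_sum, Finset.mul_sum]
    conv_rhs => erw [← (Fin.consEquiv fun _ : Fin (w.length + 1) => Bool).sum_comp]
    simp [Fintype.sum_prod_type, add_comm]

theorem prod_ofFn_smul {R : Type*} [Semiring R] [Algebra ℂ R] :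
    ∀ (k : ℕ) (s : Fin k → ℂ) (f : Fin k → R),
      (List.ofFn fun l => s l • f l).prod = (∏ l, s l) • (List.ofFn f).prod
  | 0, _, _ => by simp
  | k + 1, s, f => by
    simp [List.ofFn_succ, prod_ofFn_smul k, Fin.prod_univ_succ, smul_smul, mul_comm]

/-- The law of `Y t` is that of `Y 0` with free semicirculars of variance `t` added. -/
theorem Params.addSemicircular_law (t : ℝ) (w : List (Fin (2 + p.n))) :
    addSemicircular (p.law 0) (fun _ => t) w = p.law t w := by
  rw [addSemicircular]
  simp only [p.mixedMoment_law]
  have hY : ∀ j, p.Y t j = p.pairPoly (Sum.inl j) + (Real.sqrt t : ℂ) • p.pairPoly (Sum.inr j) :=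
    fun j => by simp [Params.pairPoly, Params.Y]
  rw [Params.law, show w.map (p.Y t) = w.map (fun j => p.pairPoly (Sum.inl j) +
    (Real.sqrt t : ℂ) • p.pairPoly (Sum.inr j)) from List.map_congr_left fun j _ => hY j,
    prod_map_add, map_sum]
  refine Finset.sum_congr rfl fun c _ => ?_
  rw [← smul_eq_mul, ← map_smul, List.map_ofFn, ← prod_ofFn_smul]
  congr 2
  refine congrArg List.ofFn (funext fun l => ?_)
  by_cases hc : c l <;> simp [hc]

end

end VAgent.P087
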