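import Mathlib
import Vale.Agent.P087.Gap
import Vale.Agent.P087.Star.Mixed
import Vale.Agent.P087.Star.Adj

/-!
# P087: Wick polynomials of the added noise represent higher difference quotients

`σ i = √v_i S + √t S'` has variance `cov i`; `wickR w` is the Wick polynomial of `σ` along the
reversed word, and `τ (P(Y) wickR w) = ∏ cov * (gaps expansion of w in P)`.
-/

namespace VAgent.P087

open scoped ComplexConjugate

noncomputable section

variable (p : Params) (t : ℝ)

/-- The total noise. -/
def Params.sigma (i : Fin (2 + p.n)) : Poly p.Noise :=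
  (Real.sqrt (p.v i) : ℂ) • polyG (Sum.inl (i, false))
    + (Real.sqrt t : ℂ) • polyG (Sum.inl (i, true))

/-- Its variance. -/
def Params.cov (i : Fin (2 + p.n)) : ℂ :=
  (Real.sqrt (p.v i) : ℂ) * Real.sqrt (p.v i) + (Real.sqrt t : ℂ) * Real.sqrt t

/-- The covariance of `sigma k` with `sigma i`. -/
def Params.dcov (i k : Fin (2 + p.n)) : ℂ := if k = i then p.cov t k else 0

theorem Params.cov_eq {i : Fin (2 + p.n)} (hv : 0 ≤ p.v i) (ht : 0 ≤ t) :
    p.cov t i = ((p.v i + t : ℝ) : ℂ) := by
  simp only [Params.cov, ← Complex.ofReal_mul, ← Complex.ofReal_add, Real.mul_self_sqrt hv,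
    Real.mul_self_sqrt ht]

theorem Params.Y_eq (i : Fin (2 + p.n)) : p.Y t i = p.base i + p.sigma t i := by
  simp [Params.Y, Params.sigma, add_assoc]

/-- `split` along `sigma i`. -/
def Params.splitS (i : Fin (2 + p.n)) :
    Poly p.Noise →ₗ[ℂ] Poly p.Noise →ₗ[ℂ] Poly p.Noise →ₗ[ℂ] ℂ :=
  (Real.sqrt (p.v i) : ℂ) • split (Sum.inl (i, false))
    + (Real.sqrt t : ℂ) • split (Sum.inl (i, true))

theorem Params.tauL_sigma_mul (i : Fin (2 + p.n)) (P : Poly p.Noise) :
    tauL (p.sigma t i * P) = p.splitS t i 1 P 1 := by
  simp [Params.sigma, Params.splitS, add_mul, tauL_polyG_mul]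

theorem Params.splitS_base (i k : Fin (2 + p.n)) (A B : Poly p.Noise) :
    p.splitS t i A (p.base k) B = 0 := by
  simp [Params.splitS, p.split_base_noise]

theorem Params.splitS_Y (i k : Fin (2 + p.n)) (A B : Poly p.Noise) :
    p.splitS t i A (p.Y t k) B = p.dcov t i k * (tauL A * tauL B) := by
  unfold Params.dcov
  by_cases h : k = i
  · subst h
    simp [Params.splitS, p.split_Y_noise, Params.cov]
    ring
  · simp [Params.splitS, p.split_Y_noise, h]

theorem Params.splitS_sigma (i k : Fin (2 + p.n)) (A B : Poly p.Noise) :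
    p.splitS t i A (p.sigma t k) B = p.dcov t i k * (tauL A * tauL B) := by
  have h := p.splitS_Y t i k A B
  rwa [p.Y_eq, map_add, LinearMap.add_apply, p.splitS_base, zero_add] at h

theorem Params.splitS_mul (i : Fin (2 + p.n)) (A P Q B : Poly p.Noise) :
    p.splitS t i A (P * Q) B = p.splitS t i A P (Q * B) + p.splitS t i (A * P) Q B := by
  simp [Params.splitS, split_mul]
  ring

theorem Params.splitS_one (i : Fin (2 + p.n)) (A B : Poly p.Noise) :
    p.splitS t i A 1 B = 0 := by
  simp [Params.splitS, split_one]

theorem Params.splitS_prod_Y (i : Fin (2 + p.n)) (w : List (Fin (2 + p.n))) (A B : Poly p.Noise) :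
    p.splitS t i A (w.map (p.Y t)).prod B = ∑ q : Fin w.length,
      p.dcov t i (w.get q) *
        (tauL (A * ((w.take q).map (p.Y t)).prod) *
          tauL (((w.drop (q + 1)).map (p.Y t)).prod * B)) := by
  induction w generalizing A with
  | nil => simp [p.splitS_one]
  | cons a w ih =>
    rw [List.map_cons, List.prod_cons, p.splitS_mul, p.splitS_Y, ih]
    simp [Fin.sum_univ_succ, mul_assoc]

/-- Wick polynomial, last letter first. -/
def Params.wickR : List (Fin (2 + p.n)) → Poly p.Noise
  | [] => 1
  | [i] => p.sigma t i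
  | i :: k :: w => Params.wickR (k :: w) * p.sigma t i -
      if k = i then p.cov t i • Params.wickR w else 0

/-- Wick polynomial. -/
def Params.wickL : List (Fin (2 + p.n)) → Poly p.Noise
  | [] => 1
  | [i] => p.sigma t i
  | i :: k :: w => p.sigma t i * Params.wickL (k :: w) -
      if k = i then p.cov t i • Params.wickL w else 0

theorem Params.adj_sigma (i : Fin (2 + p.n)) : adj (p.sigma t i) = p.sigma t i := by
  rw [Params.sigma, map_add, adj_smul, adj_smul, adj_polyG, adj_polyG, Complex.conj_ofReal,
    Complex.conj_ofReal]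

theorem Params.conj_cov (i : Fin (2 + p.n)) : conj (p.cov t i) = p.cov t i := by
  simp [Params.cov]

theorem Params.adj_wickR : ∀ w, adj (p.wickR t w) = p.wickL t w
  | [] => by simp [Params.wickR, Params.wickL, adj_one]
  | [i] => by simp [Params.wickR, Params.wickL, p.adj_sigma]
  | i :: k :: w => by
    rw [Params.wickR, Params.wickL]
    split_ifs with h
    · simp [map_sub, adj_mul, p.adj_sigma, Params.adj_wickR (k :: w), LinearMap.map_smulₛₗ,
        p.conj_cov, Params.adj_wickR w]
    · simp [map_sub, adj_mul, p.adj_sigma, Params.adj_wickR (k :: w)]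

theorem Params.splitS_wickR (i : Fin (2 + p.n)) : ∀ (w : List (Fin (2 + p.n))) (A B : Poly p.Noise),
    p.splitS t i A (p.wickR t w) B = ∑ q : Fin w.length,
      p.dcov t i (w.get q) *
        (tauL (A * p.wickR t (w.drop (q + 1))) * tauL (p.wickR t (w.take q) * B))
  | [], A, B => by simp [Params.wickR, p.splitS_one]
  | [a], A, B => by simp [Params.wickR, p.splitS_sigma]
  | a :: k :: w, A, B => by
    have h1 := Params.splitS_wickR i (k :: w) A (p.sigma t a * B)
    have h2 := Params.splitS_wickR i w A B
    rw [Params.wickR, map_sub, LinearMap.sub_apply, p.splitS_mul, p.splitS_sigma, h1]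
    simp only [List.length_cons, Fin.sum_univ_succ, List.get_eq_getElem, Fin.val_zero, Fin.val_succ,
      List.getElem_cons_zero, List.getElem_cons_succ, List.take_zero, List.take_succ_cons,
      List.drop_succ_cons, List.drop_zero, zero_add, Params.wickR, one_mul, mul_one]
    by_cases hk : k = a
    · simp only [hk, if_true, map_smul, LinearMap.smul_apply, h2, Finset.smul_sum,
        List.get_eq_getElem, smul_eq_mul, sub_mul, mul_assoc, map_sub, smul_mul_assoc, mul_sub,
        Finset.sum_sub_distrib]
      have e : ∀ x : Fin w.length,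
          p.cov t a * (p.dcov t i w[(x : ℕ)] *
            (tauL (A * p.wickR t (w.drop (x + 1))) * tauL (p.wickR t (w.take x) * B))) =
          p.dcov t i w[(x : ℕ)] *
            (tauL (A * p.wickR t (w.drop (x + 1))) *
              (p.cov t a * tauL (p.wickR t (w.take x) * B))) := fun x => by ring
      simp only [Finset.mul_sum, e]
      ring
    · simp only [if_neg hk, map_zero, LinearMap.zero_apply, sub_zero, sub_mul, mul_assoc]
      ring

theorem Params.splitS_wickL (i : Fin (2 + p.n)) : ∀ (w : List (Fin (2 + p.n))) (A B : Poly p.Noise),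
    p.splitS t i A (p.wickL t w) B = ∑ q : Fin w.length,
      p.dcov t i (w.get q) *
        (tauL (A * p.wickL t (w.take q)) * tauL (p.wickL t (w.drop (q + 1)) * B))
  | [], A, B => by simp [Params.wickL, p.splitS_one]
  | [a], A, B => by simp [Params.wickL, p.splitS_sigma]
  | a :: k :: w, A, B => by
    have h1 := Params.splitS_wickL i (k :: w) (A * p.sigma t a) B
    have h2 := Params.splitS_wickL i w A B
    rw [Params.wickL, map_sub, LinearMap.sub_apply, p.splitS_mul, p.splitS_sigma, h1]
    simp only [List.length_cons, Fin.sum_univ_succ, List.get_eq_getElem, Fin.val_zero, Fin.val_succ,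
      List.getElem_cons_zero, List.getElem_cons_succ, List.take_zero, List.take_succ_cons,
      List.drop_succ_cons, List.drop_zero, zero_add, Params.wickL, one_mul, mul_one]
    by_cases hk : k = a
    · simp only [hk, if_true, map_smul, LinearMap.smul_apply, h2, Finset.smul_sum,
        List.get_eq_getElem, smul_eq_mul, mul_assoc, map_sub, mul_smul_comm, mul_sub, sub_mul,
        Finset.sum_sub_distrib]
      have e : ∀ x : Fin w.length,
          p.cov t a * (p.dcov t i w[(x : ℕ)] *
            (tauL (A * p.wickL t (w.take x)) * tauL (p.wickL t (w.drop (x + 1)) * B))) =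
          p.dcov t i w[(x : ℕ)] *
            (p.cov t a * (tauL (A * p.wickL t (w.take x)) *
              tauL (p.wickL t (w.drop (x + 1)) * B))) := fun x => by ring
      simp only [Finset.mul_sum, e]
      ring
    · simp only [if_neg hk, map_zero, LinearMap.zero_apply, sub_zero, mul_assoc]

end

end VAgent.P087
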