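import Mathlib
import Vale.Agent.P087.Star.Wick
import Vale.Agent.P087.Star.GapLemmas

/-!
# P087: the functional of a word with gaps is bounded in `L²`
-/

namespace VAgent.P087

open scoped ComplexConjugate

noncomputable section

variable (p : Params) (t : ℝ)

theorem Params.splitS_wickL_one (i k : Fin (2 + p.n)) (w : List (Fin (2 + p.n)))
    (h : ∀ u : List (Fin (2 + p.n)), u.length ≤ w.length → u ≠ [] → tauL (p.wickL t u) = 0)
    (B : Poly p.Noise) :
    p.splitS t i 1 (p.wickL t (k :: w)) B = p.dcov t i k * tauL (p.wickL t w * B) := by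
  rw [p.splitS_wickL]
  simp only [List.length_cons, Fin.sum_univ_succ, one_mul]
  rw [Finset.sum_eq_zero (fun x _ => ?_), add_zero]
  · simp [Params.wickL, tauL_one]
  · rw [h _ (by simp) (by simp)]
    simp

theorem Params.tauL_wickL_eq_zero : ∀ w : List (Fin (2 + p.n)), w ≠ [] → tauL (p.wickL t w) = 0
  | [], h => (h rfl).elim
  | [i], _ => by
    have h := p.tauL_sigma_mul t i 1
    rw [mul_one, p.splitS_one] at h
    simpa [Params.wickL] using h
  | i :: k :: w, _ => by
    have h := p.splitS_wickL_one t i k w (fun u _ hu => Params.tauL_wickL_eq_zero u hu) 1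
    simp only [mul_one] at h
    rw [Params.wickL, map_sub, p.tauL_sigma_mul, h]
    simp only [Params.dcov]
    split_ifs with hk
    · subst hk; simp
    · simp
  termination_by w => w.length
  decreasing_by all_goals (simp at *; omega)

theorem Params.tauL_wickR_eq_zero (w : List (Fin (2 + p.n))) (hw : w ≠ []) :
    tauL (p.wickR t w) = 0 := by
  have h := p.tauL_wickL_eq_zero t w hw
  rw [← p.adj_wickR, tauL_adj] at h
  simpa using h

theorem Params.tauL_mul_wickR (i : Fin (2 + p.n)) (w : List (Fin (2 + p.n))) (B : Poly p.Noise) :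
    tauL (B * p.wickR t (i :: w)) = p.splitS t i 1 B (p.wickR t w) := by
  cases w with
  | nil =>
    simp only [Params.wickR]
    rw [tauL_mul_comm, p.tauL_sigma_mul]
  | cons k w' =>
    rw [Params.wickR, mul_sub, map_sub, ← mul_assoc, tauL_mul_comm, p.tauL_sigma_mul,
      p.splitS_mul, one_mul, mul_one, p.splitS_wickR, add_sub_assoc, add_eq_left, sub_eq_zero]
    simp only [List.length_cons, Fin.sum_univ_succ]
    rw [Finset.sum_eq_zero (fun x _ => ?_), add_zero]
    · simp only [List.get_eq_getElem, Fin.val_zero, List.getElem_cons_zero, zero_add,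
        List.drop_succ_cons, List.drop_zero, List.take_zero, mul_one, Params.wickR, tauL_one,
        Params.dcov]
      split_ifs with hk
      · subst hk; simp
      · simp [hk]
    · rw [mul_one, p.tauL_wickR_eq_zero t _ (by simp), mul_zero, mul_zero]

theorem Params.tauL_wickL_mul_wickR : ∀ w : List (Fin (2 + p.n)),
    tauL (p.wickL t w * p.wickR t w) = (w.map (p.cov t)).prod
  | [] => by simp [Params.wickL, Params.wickR, tauL_one]
  | i :: w => by
    rw [p.tauL_mul_wickR, p.splitS_wickL_one t i i w
      (fun u _ hu => p.tauL_wickL_eq_zero t u hu)]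
    simp [Params.dcov, Params.tauL_wickL_mul_wickR w]

/-- The Wick polynomial represents the gaps functional. -/
theorem Params.tauL_prod_mul_wickR (w u : List (Fin (2 + p.n))) :
    tauL ((u.map (p.Y t)).prod * p.wickR t w) =
      (w.map (p.cov t)).prod * gapExp (p.law t) (fun S => if S = w then 1 else 0) u := by
  induction w generalizing u with
  | nil =>
    rw [gapExp_eq]
    simp [Params.wickR, gapExp_zero_fun, Params.law]
  | cons i w ih =>
    rw [p.tauL_mul_wickR, p.splitS_prod_Y, gapExp_eq]
    simp only [reduceCtorEq, List.nil_eq, if_false, zero_mul, zero_add, Finset.mul_sum, one_mul]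
    refine Finset.sum_congr rfl fun q _ => ?_
    rw [ih, Params.law]
    by_cases hq : u.get q = i
    · simp only [Params.dcov, hq, if_true, List.map_cons, List.prod_cons, List.cons.injEq, true_and]
      ring
    · simp only [Params.dcov, hq, if_false, zero_mul, List.cons.injEq, false_and, gapExp_zero_fun]
      ring

end

end VAgent.P087
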