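import Mathlib
import Vale.Agent.P087.Star.Dual

/-!
# P087: the trivial bounds on the free Fisher information of the model
-/

namespace VAgent.P087

open scoped ComplexConjugate ENNReal

noncomputable section

variable (p : Params) (t : ℝ)

/-- The element `P (Y t)`. -/
def Params.polyEval (P : List (Fin (2 + p.n)) →₀ ℂ) : Poly p.Noise :=
  ∑ u ∈ P.support, P u • (u.map (p.Y t)).prod

/-- `‖P (Y t)‖₂²` as used in `fisher`. -/
def Params.quadForm (P : List (Fin (2 + p.n)) →₀ ℂ) : ℝ :=
  (∑ v ∈ P.support, ∑ w ∈ P.support, conj (P v) * P w * p.law t (v.reverse ++ w)).re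

theorem Params.adj_base (i : Fin (2 + p.n)) : adj (p.base i) = p.base i := by
  unfold Params.base
  induction i using Fin.addCases with
  | left i =>
    rw [Fin.addCases_left]
    split_ifs
    · rw [adj_smul, map_add, adj_polyU, adj_polyU, Complex.conj_ofReal, neg_neg, add_comm]
    · rw [adj_smul, map_add, adj_smul, adj_smul, adj_polyU, adj_polyU, Complex.conj_ofReal,
        map_neg, Complex.conj_I, neg_neg, neg_neg, add_comm]
  | right e =>
    rw [Fin.addCases_right]
    rw [adj_mul, adj_mul, adj_polyU, adj_polyG, adj_polyU, neg_neg, mul_assoc]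

theorem Params.adj_Y (i : Fin (2 + p.n)) : adj (p.Y t i) = p.Y t i := by
  rw [p.Y_eq, map_add, p.adj_base, p.adj_sigma]

theorem Params.adj_prod_Y (u : List (Fin (2 + p.n))) :
    adj (u.map (p.Y t)).prod = (u.reverse.map (p.Y t)).prod := by
  rw [adj_prod, List.map_map, List.map_reverse]
  congr 2
  exact List.map_congr_left fun i _ => p.adj_Y t i

theorem Params.tauL_adj_polyEval (P : List (Fin (2 + p.n)) →₀ ℂ) :
    (tauL (adj (p.polyEval t P) * p.polyEval t P)).re = p.quadForm t P := by
  unfold Params.polyEval Params.quadForm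
  simp only [map_sum, adj_smul, p.adj_prod_Y, Finset.sum_mul, Finset.mul_sum, smul_mul_assoc,
    mul_smul_comm, map_smul, smul_eq_mul, Params.law, List.map_append, List.prod_append]
  rw [Finset.sum_comm]
  congr 1
  exact Finset.sum_congr rfl fun v _ => Finset.sum_congr rfl fun w _ => by ring

theorem Params.quadForm_nonneg (P : List (Fin (2 + p.n)) →₀ ℂ) : 0 ≤ p.quadForm t P := by
  rw [← p.tauL_adj_polyEval]
  exact tauL_adj_mul_self_nonneg _

/-- The functional of a word with gaps. -/
def Params.gapForm (F : List (Fin (2 + p.n)) → ℂ) (P : List (Fin (2 + p.n)) →₀ ℂ) : ℂ :=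
  ∑ u ∈ P.support, P u * gapExp (p.law t) F u

theorem Params.gapForm_delta_le (hv : ∀ i, 0 < p.v i) (ht : 0 ≤ t)
    (w : List (Fin (2 + p.n))) (P : List (Fin (2 + p.n)) →₀ ℂ) :
    ‖p.gapForm t (fun S => if S = w then 1 else 0) P‖ ≤
      (w.map fun i => (Real.sqrt (p.v i + t))⁻¹).prod * Real.sqrt (p.quadForm t P) := by
  have hc : ∀ l : List (Fin (2 + p.n)),
      (l.map (p.cov t)).prod = ((l.map fun i => p.v i + t).prod : ℝ) := by
    intro l
    induction l with
    | nil => simp
    | cons a l ih => simp [ih, p.cov_eq t (hv a).le ht]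
  set c := (w.map fun i => p.v i + t).prod with hc'
  have hpos : 0 < c := List.prod_pos fun a ha => by
    obtain ⟨i, -, rfl⟩ := List.mem_map.1 ha
    linarith [hv i]
  have hsq : (w.map fun i => (Real.sqrt (p.v i + t))⁻¹).prod = (Real.sqrt c)⁻¹ := by
    rw [hc']
    clear hc hc' hpos c
    induction w with
    | nil => simp
    | cons a l ih =>
      simp only [List.map_cons, List.prod_cons, ih,
        Real.sqrt_mul (show 0 ≤ p.v a + t by linarith [hv a]), mul_inv]
  rw [hsq]
  have h1 : tauL (p.polyEval t P * p.wickR t w) =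
      (c : ℂ) * p.gapForm t (fun S => if S = w then 1 else 0) P := by
    unfold Params.polyEval Params.gapForm
    simp only [Finset.sum_mul, map_sum, smul_mul_assoc, map_smul, p.tauL_prod_mul_wickR, hc,
      smul_eq_mul, Finset.mul_sum, ← hc']
    exact Finset.sum_congr rfl fun u _ => by ring
  have h2 := tauL_cauchy_schwarz (adj (p.polyEval t P)) (p.wickR t w)
  rw [adj_adj, h1, norm_mul, mul_pow, p.adj_wickR, p.tauL_wickL_mul_wickR, hc,
    tauL_mul_comm (p.polyEval t P), p.tauL_adj_polyEval, Complex.ofReal_re,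
    Complex.norm_real, Real.norm_of_nonneg hpos.le, ← hc'] at h2
  set g := ‖p.gapForm t (fun S => if S = w then 1 else 0) P‖
  have hg : g ^ 2 ≤ c⁻¹ * p.quadForm t P := by
    rw [le_inv_mul_iff₀ hpos]
    nlinarith
  calc g = Real.sqrt (g ^ 2) := (Real.sqrt_sq (norm_nonneg _)).symm
    _ ≤ Real.sqrt (c⁻¹ * p.quadForm t P) := Real.sqrt_le_sqrt hg
    _ = _ := by rw [Real.sqrt_mul (inv_nonneg.2 hpos.le), Real.sqrt_inv]

theorem Params.dqPair_eq (j : Fin (2 + p.n)) (u : List (Fin (2 + p.n))) :
    dqPair (p.law t) j u = gapExp (p.law t) (fun S => if S = [j] then 1 else 0) u := by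
  rw [dqPair, gapExp_eq]
  simp only [List.nil_eq, List.cons_ne_nil, if_false, zero_mul, zero_add, List.cons.injEq]
  refine Finset.sum_congr rfl fun q _ => ?_
  by_cases hq : u.get q = j
  · simp only [hq, true_and, if_true]
    rw [gapExp_eq]
    simp [gapExp_zero_fun]
  · simp only [hq, false_and, if_false, gapExp_zero_fun, mul_zero]

/-- One summand of the free Fisher information. -/
def Params.fisherTerm (j : Fin (2 + p.n)) : ℝ≥0∞ :=
  ⨆ P : List (Fin (2 + p.n)) →₀ ℂ,
    ENNReal.ofReal (‖p.gapForm t (fun S => if S = [j] then 1 else 0) P‖ ^ 2) /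
      ENNReal.ofReal (p.quadForm t P)

theorem Params.fisher_eq : fisher (p.law t) = ∑ j, p.fisherTerm t j := by
  simp only [fisher, Params.fisherTerm, Params.gapForm, ← p.dqPair_eq]
  rfl

theorem Params.fisherTerm_le_of_bound {C : ℝ} (hC : 0 ≤ C) (j : Fin (2 + p.n))
    (h : ∀ P, ‖p.gapForm t (fun S => if S = [j] then 1 else 0) P‖ ≤
      C * Real.sqrt (p.quadForm t P)) :
    p.fisherTerm t j ≤ ENNReal.ofReal (C ^ 2) := by
  refine iSup_le fun P => ?_
  refine ENNReal.div_le_of_le_mul ?_
  rw [← ENNReal.ofReal_mul (sq_nonneg C)]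
  refine ENNReal.ofReal_le_ofReal ?_
  calc _ ≤ (C * Real.sqrt (p.quadForm t P)) ^ 2 := pow_le_pow_left₀ (norm_nonneg _) (h P) 2
    _ = _ := by rw [mul_pow, Real.sq_sqrt (p.quadForm_nonneg t P)]

theorem Params.fisherTerm_le (hv : ∀ i, 0 < p.v i) (ht : 0 ≤ t) (j : Fin (2 + p.n)) :
    p.fisherTerm t j ≤ ENNReal.ofReal (1 / (p.v j + t)) := by
  have h := p.fisherTerm_le_of_bound t (C := (Real.sqrt (p.v j + t))⁻¹) (by positivity) j
    (fun P => by simpa using p.gapForm_delta_le t hv ht [j] P)
  rwa [inv_pow, Real.sq_sqrt (by linarith [hv j]), inv_eq_one_div] at h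

theorem Params.fisherTerm_ge (j : Fin (2 + p.n)) :
    ENNReal.ofReal 1 / ENNReal.ofReal ((p.law t [j, j]).re) ≤ p.fisherTerm t j := by
  refine le_trans (le_of_eq ?_) (le_iSup (fun P : List (Fin (2 + p.n)) →₀ ℂ => _)
    (Finsupp.single [j] 1))
  have h1 : ([j] : List (Fin (2 + p.n))).reverse ++ [j] = [j, j] := rfl
  simp [Params.gapForm, Params.quadForm, ← p.dqPair_eq, dqPair,
    Params.law, tauL_one]

end

end VAgent.P087
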