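import Mathlib
import Vale.Agent.P087.Star.SD

/-!
# P087: powers of the unitary merge under `tau`
-/

namespace VAgent.P087

open MeasureTheory Filter

noncomputable section

variable {J : Type} [Fintype J] [DecidableEq J]

/-- Words with the same value on all matrix tuples have the same moment. -/
theorem tau_congr_eval (a b : List (Letter J))
    (h : ∀ k : ℕ, 0 < k → ∀ G : J → Matrix (Fin k) (Fin k) ℂ,
      (a.map (letterMat G)).prod = (b.map (letterMat G)).prod) : tau a = tau b := by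
  by_contra hne
  have hε : 0 < ‖tau a - tau b‖ / 2 := by
    have : 0 < ‖tau a - tau b‖ := norm_pos_iff.2 (sub_ne_zero.2 hne)
    linarith
  obtain ⟨k, hk, hk0⟩ := ((gauss_microstates (J := J) {a, b} hε).and
    (eventually_gt_atTop 0)).exists
  obtain ⟨x, hx, -⟩ : ∃ x : J → Fin k → Fin k → ℝ, (∀ w ∈ ({a, b} : Finset (List (Letter J))),
      ‖ntr ((w.map (letterMat fun j => herm (x j))).prod) - tau w‖ < ‖tau a - tau b‖ / 2) ∧
        ∀ j : J, OpLe (herm (x j)) 16 := by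
    exact nonempty_of_measure_ne_zero (ne_of_gt (lt_of_lt_of_le (by norm_num) hk))
  have ha := hx a (by simp)
  have hb := hx b (by simp)
  rw [h k hk0] at ha
  have := norm_sub_le (ntr ((b.map (letterMat fun j => herm (x j))).prod) - tau b)
    (ntr ((b.map (letterMat fun j => herm (x j))).prod) - tau a)
  rw [sub_sub_sub_cancel_left] at this
  linarith

theorem letterMat_inl_mul {k : ℕ} (G : J → Matrix (Fin k) (Fin k) ℂ) (i l : ℤ) :
    letterMat G (Sum.inl i) * letterMat G (Sum.inl l) = letterMat G (Sum.inl (i + l)) := by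
  ext a b
  have hk : 0 < k := a.pos
  simp only [letterMat, Matrix.mul_apply, Matrix.of_apply]
  set c₀ : Fin k := ⟨((((b : ℕ) : ℤ) + l) % (k : ℤ)).toNat, by
    have := Int.emod_lt_of_pos (((b : ℕ) : ℤ) + l) (by exact_mod_cast hk : (0 : ℤ) < k)
    have := Int.emod_nonneg (((b : ℕ) : ℤ) + l) (by exact_mod_cast hk.ne' : (k : ℤ) ≠ 0)
    omega⟩ with hc₀
  have hc : ((c₀ : ℕ) : ℤ) = (((b : ℕ) : ℤ) + l) % (k : ℤ) := by
    simp only [hc₀]
    exact Int.toNat_of_nonneg (Int.emod_nonneg _ (by exact_mod_cast hk.ne'))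
  have hiff : ∀ c : Fin k, ((c : ℕ) : ℤ) ≡ ((b : ℕ) : ℤ) + l [ZMOD (k : ℤ)] ↔ c = c₀ := by
    intro c
    constructor
    · intro h
      have h' : ((c : ℕ) : ℤ) % (k : ℤ) = (((b : ℕ) : ℤ) + l) % (k : ℤ) := h
      rw [Int.emod_eq_of_lt (by positivity) (by exact_mod_cast c.isLt)] at h'
      exact Fin.ext (by exact_mod_cast h'.trans hc.symm)
    · rintro rfl
      rw [hc]
      exact Int.mod_modEq _ _
  rw [Finset.sum_eq_single c₀ (fun c _ hne => by simp [hiff, hne]) (by simp)]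
  rw [if_pos ((hiff c₀).2 rfl), mul_one]
  have : ((c₀ : ℕ) : ℤ) + i ≡ ((b : ℕ) : ℤ) + (i + l) [ZMOD (k : ℤ)] := by
    have := ((hiff c₀).2 rfl).add_right i
    rwa [show ((b : ℕ) : ℤ) + l + i = ((b : ℕ) : ℤ) + (i + l) by ring] at this
  by_cases h : ((a : ℕ) : ℤ) ≡ ((c₀ : ℕ) : ℤ) + i [ZMOD (k : ℤ)]
  · rw [if_pos h, if_pos (h.trans this)]
  · rw [if_neg h, if_neg fun h' => h (h'.trans this.symm)]

theorem letterMat_inl_zero {k : ℕ} (G : J → Matrix (Fin k) (Fin k) ℂ) :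
    letterMat G (Sum.inl 0) = 1 := by
  ext a b
  simp only [letterMat, Matrix.of_apply, Matrix.one_apply, add_zero]
  refine if_congr ⟨fun h => Fin.ext ?_, fun h => by rw [h]⟩ rfl rfl
  have h' : ((a : ℕ) : ℤ) % (k : ℤ) = ((b : ℕ) : ℤ) % (k : ℤ) := h
  rw [Int.emod_eq_of_lt (by positivity) (by exact_mod_cast a.isLt),
    Int.emod_eq_of_lt (by positivity) (by exact_mod_cast b.isLt)] at h'
  exact_mod_cast h'

theorem tauL_polyU_merge (A B : Poly J) (i l : ℤ) :
    tauL (A * (polyU i * polyU l) * B) = tauL (A * polyU (i + l) * B) := by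
  let f₁ : Poly J →ₗ[ℂ] Poly J →ₗ[ℂ] ℂ :=
    ((LinearMap.mul ℂ (Poly J)).comp (LinearMap.mulRight ℂ (polyU i * polyU l))).compr₂ tauL
  let f₂ : Poly J →ₗ[ℂ] Poly J →ₗ[ℂ] ℂ :=
    ((LinearMap.mul ℂ (Poly J)).comp (LinearMap.mulRight ℂ (polyU (i + l)))).compr₂ tauL
  have : f₁ = f₂ := poly_ext fun a => poly_ext fun b => by
    simp only [f₁, f₂, LinearMap.compr₂_apply, LinearMap.comp_apply, LinearMap.mulRight_apply,
      LinearMap.mul_apply', polyU, letterPoly_eq, ← mon_append, tauL_mon]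
    exact tau_congr_eval _ _ fun k _ G => by simp [← mul_assoc, mul_assoc _ (letterMat G (Sum.inl i)), letterMat_inl_mul]
  simpa [f₁, f₂, mul_assoc] using LinearMap.congr_fun (LinearMap.congr_fun this A) B

theorem tauL_polyU_zero (A B : Poly J) : tauL (A * polyU 0 * B) = tauL (A * B) := by
  let f₁ : Poly J →ₗ[ℂ] Poly J →ₗ[ℂ] ℂ :=
    ((LinearMap.mul ℂ (Poly J)).comp (LinearMap.mulRight ℂ (polyU 0))).compr₂ tauL
  let f₂ : Poly J →ₗ[ℂ] Poly J →ₗ[ℂ] ℂ := (LinearMap.mul ℂ (Poly J)).compr₂ tauL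
  have : f₁ = f₂ := poly_ext fun a => poly_ext fun b => by
    simp only [f₁, f₂, LinearMap.compr₂_apply, LinearMap.comp_apply, LinearMap.mulRight_apply,
      LinearMap.mul_apply', polyU, letterPoly_eq, ← mon_append, tauL_mon]
    exact tau_congr_eval _ _ fun k _ G => by simp [letterMat_inl_zero]
  simpa [f₁, f₂] using LinearMap.congr_fun (LinearMap.congr_fun this A) B

end

end VAgent.P087
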