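import Mathlib
import Vale.Agent.P087.Star.Fisher
import Vale.Agent.P087.Star.Shift
import Vale.Agent.P087.Cumulant

/-!
# P087: the cross terms between the conjugates

Pairing the `e`-th conjugate with a word gives the difference quotient plus cross terms, and the
cross terms are a gaps functional built from the cumulants `cumK`.
-/

namespace VAgent.P087

open Cum (spl)

noncomputable section

variable (p : Params) (t : ℝ)

theorem tri_prod {J : Type} [DecidableEq J] {α : Type*}
    (T : Poly J →ₗ[ℂ] Poly J →ₗ[ℂ] Poly J →ₗ[ℂ] ℂ)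
    (hmul : ∀ A P Q B, T A (P * Q) B = T A P (Q * B) + T (A * P) Q B)
    (hone : ∀ A B, T A 1 B = 0) (φ : α → Poly J) (c : α → ℂ) (L R : α → Poly J)
    (h : ∀ a A B, T A (φ a) B = c a * (tauL (A * L a) * tauL (R a * B)))
    (w : List α) (A B : Poly J) :
    T A (w.map φ).prod B = spl (fun a x b =>
      c x * (tauL (A * (a.map φ).prod * L x) * tauL (R x * ((b.map φ).prod * B)))) w := by
  induction w generalizing A with
  | nil => simp [hone, Cum.spl]
  | cons x w ih =>
    rw [List.map_cons, List.prod_cons, hmul, h, ih]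
    simp [Cum.spl, mul_assoc]

/-- Pair letters without exponent are the noise of `Y`, the others are `Y` itself. -/
def Params.kSub : ℤ ⊕ Fin (2 + p.n) → Poly p.Noise :=
  Sum.elim polyU (Fin.addCases (fun i : Fin 2 => p.sigma t (Fin.castAdd p.n i))
    fun f => p.Y t (Fin.natAdd 2 f))

/-- The exponents. -/
def Params.gK : Fin (2 + p.n) → Option ℤ := Fin.addCases (fun _ => none) fun f => some (p.g f)

/-- The variances. -/
def Params.vK : Fin (2 + p.n) → ℂ :=
  Fin.addCases (fun i : Fin 2 => p.cov t (Fin.castAdd p.n i))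
    fun f => 1 + p.cov t (Fin.natAdd 2 f)

/-- The joint moments of the letters. -/
def Params.kM (w : List (ℤ ⊕ Fin (2 + p.n))) : ℂ := tauL (w.map (p.kSub t)).prod

theorem Params.splitS_kSub (i : Fin (2 + p.n)) (a : ℤ ⊕ Fin (2 + p.n)) (A B : Poly p.Noise) :
    p.splitS t i A (p.kSub t a) B =
      Sum.elim (fun _ => 0) (p.dcov t i) a * (tauL (A * 1) * tauL (1 * B)) := by
  rcases a with k | k
  · simp [Params.kSub, Params.splitS, polyU, split_letter_ne]
  · induction k using Fin.addCases with
    | left k => simp [Params.kSub, p.splitS_sigma]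
    | right k => simp [Params.kSub, p.splitS_Y]

theorem Params.split_z_sigma (i : Fin (2 + p.n)) (A B : Poly p.Noise) :
    split (Sum.inr ()) A (p.sigma t i) B = 0 := by
  simp [Params.sigma, polyG, split_letter_ne]

theorem Params.split_z_kSub (a : ℤ ⊕ Fin (2 + p.n)) (A B : Poly p.Noise) :
    split (Sum.inr ()) A (p.kSub t a) B =
      Sum.elim (fun _ => (0 : ℂ)) (Fin.addCases (fun _ => 0) fun _ => 1) a *
        (tauL (A * Sum.elim (fun _ => 1) (Fin.addCases (fun _ => 1) fun f => polyU (p.g f)) a) *
          tauL (Sum.elim (fun _ => 1) (Fin.addCases (fun _ => 1) fun f => polyU (-p.g f)) a * B)) := by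
  rcases a with k | k
  · simp [Params.kSub, polyU, split_letter_ne]
  · induction k using Fin.addCases with
    | left k => simp [Params.kSub, p.split_z_sigma]
    | right k =>
      simp [Params.kSub, p.Y_eq, p.split_z_sigma, Params.base, split_mul, split_letter_same,
        polyU, split_letter_ne]

theorem tauL_polyU_conj {J : Type} [Fintype J] [DecidableEq J] (i l : ℤ) (P : Poly J) :
    tauL (polyU i * (P * polyU l)) = tauL (polyU (l + i) * P) := by
  rw [tauL_mul_comm, mul_assoc]
  have h := tauL_polyU_merge P 1 l i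
  simp only [mul_one] at h
  rw [h, tauL_mul_comm]

theorem Params.kM_cons (x : ℤ ⊕ Fin (2 + p.n)) (w : List (ℤ ⊕ Fin (2 + p.n))) :
    p.kM t (x :: w) = tauL (p.kSub t x * (w.map (p.kSub t)).prod) := by
  simp [Params.kM]

theorem Params.kM_comm (u w : List (ℤ ⊕ Fin (2 + p.n))) : p.kM t (u ++ w) = p.kM t (w ++ u) := by
  simp only [Params.kM, List.map_append, List.prod_append]
  exact tauL_mul_comm _ _

theorem Params.kM_nil : p.kM t [] = 1 := by simp [Params.kM, tauL_one]

/-- First factor when the first letter is a noise. -/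
def Params.phiL (i : Fin 2) : ℤ ⊕ Fin (2 + p.n) → List (ℤ ⊕ Fin (2 + p.n)) → ℂ :=
  Sum.elim (fun _ _ => 0) fun k a => p.dcov t (Fin.castAdd p.n i) k * p.kM t a

/-- First factor when the first letter is a conjugate. -/
def Params.phiR (e : Fin p.n) : ℤ ⊕ Fin (2 + p.n) → List (ℤ ⊕ Fin (2 + p.n)) → ℂ :=
  Sum.elim (fun _ _ => 0) (Fin.addCases (fun _ _ => 0) fun f a =>
    if f = e then (1 + p.cov t (Fin.natAdd 2 e)) * p.kM t a
    else p.kM t (Sum.inl (p.g f - p.g e) :: a))

/-- Second factor when the first letter is a conjugate. -/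
def Params.psiR (e : Fin p.n) : ℤ ⊕ Fin (2 + p.n) → List (ℤ ⊕ Fin (2 + p.n)) → ℂ :=
  Sum.elim (fun _ _ => 0) (Fin.addCases (fun _ _ => 0) fun f c =>
    if f = e then p.kM t c else p.kM t (Sum.inl (p.g e - p.g f) :: c))

theorem Params.kM_sigma_cons (i : Fin (2 + p.n)) (b : List (ℤ ⊕ Fin (2 + p.n))) :
    tauL (p.sigma t i * (b.map (p.kSub t)).prod) =
      spl (fun a x c => Sum.elim (fun _ => 0) (p.dcov t i) x * (p.kM t a * p.kM t c)) b := by
  rw [p.tauL_sigma_mul, tri_prod (p.splitS t i) (p.splitS_mul t i) (p.splitS_one t i) _ _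
    (fun _ => 1) (fun _ => 1) (p.splitS_kSub t i)]
  simp [Params.kM]

theorem Params.kM_left (i : Fin 2) (b : List (ℤ ⊕ Fin (2 + p.n))) :
    p.kM t (Sum.inr (Fin.castAdd p.n i) :: b) =
      spl (fun a x c => p.phiL t i x a * p.kM t c) b := by
  rw [p.kM_cons, show p.kSub t (Sum.inr (Fin.castAdd p.n i)) = p.sigma t (Fin.castAdd p.n i) by
    simp [Params.kSub], p.kM_sigma_cons]
  refine Cum.spl_congr b fun a x c _ => ?_
  rcases x with k | k <;> simp [Params.phiL, mul_assoc]

theorem Params.kM_conj_cons (e : Fin p.n) (b : List (ℤ ⊕ Fin (2 + p.n))) :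
    tauL (polyU (p.g e) * polyG (Sum.inr ()) * polyU (-p.g e) * (b.map (p.kSub t)).prod) =
      spl (fun a x c => Sum.elim (fun _ => 0) (Fin.addCases (fun _ => 0) fun f =>
        p.kM t (Sum.inl (p.g f - p.g e) :: a) * p.kM t (Sum.inl (p.g e - p.g f) :: c)) x) b := by
  rw [mul_assoc, mul_assoc, tauL_mul_comm, mul_assoc, mul_assoc, tauL_polyG_mul, split_mul,
    split_mul]
  have h0 : ∀ (k : ℤ) (A B : Poly p.Noise), split (Sum.inr ()) A (polyU k) B = 0 :=
    fun k A B => split_letter_ne _ (by simp) A B
  rw [h0, h0, zero_add, add_zero, one_mul, mul_one,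
    tri_prod (split (Sum.inr ())) (split_mul _) (split_one _) _ _ _ _ (p.split_z_kSub t)]
  refine Cum.spl_congr b fun a x c _ => ?_
  rcases x with k | k
  · simp
  · induction k using Fin.addCases with
    | left k => simp
    | right f =>
      simp only [Sum.elim_inr, Fin.addCases_right, one_mul, mul_assoc, tauL_polyU_conj, p.kM_cons,
        ← sub_eq_add_neg]
      rfl

theorem Params.kM_right (e : Fin p.n) (b : List (ℤ ⊕ Fin (2 + p.n))) :
    p.kM t (Sum.inr (Fin.natAdd 2 e) :: b) =
      spl (fun a x c => p.phiR t e x a * p.psiR t e x c) b := by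
  rw [p.kM_cons, show p.kSub t (Sum.inr (Fin.natAdd 2 e)) = p.base (Fin.natAdd 2 e) +
    p.sigma t (Fin.natAdd 2 e) by simp [Params.kSub, p.Y_eq], add_mul, map_add,
    p.kM_sigma_cons, show p.base (Fin.natAdd 2 e) =
      polyU (p.g e) * polyG (Sum.inr ()) * polyU (-p.g e) by simp [Params.base],
    p.kM_conj_cons, ← Cum.spl_add]
  refine Cum.spl_congr b fun a x c _ => ?_
  rcases x with k | k
  · simp [Params.phiR]
  · induction k using Fin.addCases with
    | left k => simp [Params.phiR, Params.dcov, Fin.ext_iff, show (k : ℕ) ≠ 2 + e by omega]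
    | right f =>
      simp only [Sum.elim_inr, Fin.addCases_right, Params.phiR, Params.psiR, Params.dcov,
        (Fin.natAdd_injective p.n 2).eq_iff]
      by_cases hf : f = e
      · subst hf
        have h0 : ∀ w, p.kM t (Sum.inl 0 :: w) = p.kM t w := fun w => by
          have h := tauL_polyU_zero (1 : Poly p.Noise) (w.map (p.kSub t)).prod
          simpa [Params.kM, Params.kSub] using h
        simp only [if_true, sub_self, h0]
        ring
      · simp [hf]

theorem Params.kM_group (l : List ℤ) :
    p.kM t (l.map Sum.inl) = if l.sum = 0 then 1 else 0 := by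
  have h : ∀ l : List ℤ,
      ((l.map Sum.inl).map (p.kSub t)).prod = mon (l.map (Sum.inl : ℤ → Letter p.Noise)) := by
    intro l
    induction l with
    | nil => simp [mon_nil]
    | cons a l ih => simp [mon_cons, ← ih, Params.kSub, polyU]
  rw [Params.kM, h, tauL_mon, tau]
  rw [dif_neg (by simp)]
  simp [charge, Function.comp_def]

theorem Params.kM_cumRules : CumRules p.gK (p.vK t) (p.kM t) where
  group := p.kM_group t
  pair l e b := by
    rw [p.kM_comm, List.cons_append]
    simp only [p.kM_comm t (l.map Sum.inl)]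
    refine Eq.trans ?_ (Cum.sum_fin_eq_spl b fun a x c => (match x with
        | Sum.inl _ => (0 : ℂ)
        | Sum.inr f =>
          if f = e then p.vK t e * p.kM t a * p.kM t (c ++ l.map Sum.inl)
          else
            match p.gK e, p.gK f with
            | some ge, some gf => p.kM t (Sum.inl (gf - ge) :: a) *
                p.kM t ((Sum.inl (ge - gf) :: c) ++ l.map Sum.inl)
            | _, _ => 0)).symm |>.trans (Finset.sum_congr rfl fun q _ => ?_)
    rotate_left
    · rcases b.get q with k | k
      · rfl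
      · dsimp only
        split_ifs
        · rfl
        · rcases p.gK e with _ | ge <;> rcases p.gK k with _ | gf <;> rfl
    induction e using Fin.addCases with
    | left i =>
      rw [p.kM_left, Cum.spl_append]
      rw [Cum.spl_congr (l.map Sum.inl) (h' := fun _ _ _ => (0 : ℂ)), Cum.spl_zero, add_zero]
      · refine Cum.spl_congr b fun a x c _ => ?_
        rcases x with k | k
        · simp [Params.phiL]
        · by_cases hk : k = Fin.castAdd p.n i
          · subst hk
            simp [Params.phiL, Params.dcov, Params.vK]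
          · simp [Params.phiL, Params.dcov, hk, Params.gK]
      · intro a x c hl
        obtain ⟨k, -, rfl⟩ := List.mem_map.1 (show x ∈ l.map Sum.inl by rw [hl]; simp)
        simp [Params.phiL]
    | right i =>
      rw [p.kM_right, Cum.spl_append]
      rw [Cum.spl_congr (l.map Sum.inl) (h' := fun _ _ _ => (0 : ℂ)), Cum.spl_zero, add_zero]
      · refine Cum.spl_congr b fun a x c _ => ?_
        rcases x with k | k
        · simp [Params.phiR]
        · induction k using Fin.addCases with
          | left k => simp [Params.phiR, Params.gK, Fin.ext_iff, show (k : ℕ) ≠ 2 + i by omega]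
          | right f =>
            by_cases hf : f = i
            · subst hf
              simp [Params.phiR, Params.psiR, Params.vK]
            · simp [Params.phiR, Params.psiR, Params.gK, hf, List.cons_append]
      · intro a x c hl
        obtain ⟨k, -, rfl⟩ := List.mem_map.1 (show x ∈ l.map Sum.inl by rw [hl]; simp)
        simp [Params.phiR]

/-- The coefficients of `Y i` in small letters. -/
def Params.coefS (i : Fin (2 + p.n)) : Bool ⊕ Fin (2 + p.n) → ℂ :=
  Sum.elim
    (fun b => Fin.addCases (fun i₀ : Fin 2 =>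
      if i₀ = 0 then (p.θ : ℂ) else (p.θ : ℂ) * (if b then -Complex.I else Complex.I))
      (fun _ => 0) i)
    fun k => if k = i then 1 else 0

theorem Params.Y_eq_sum (i : Fin (2 + p.n)) :
    p.Y t i = ∑ x, p.coefS i x • p.kSub t (smallLetter x) := by
  rw [Fintype.sum_sum_type, Fintype.sum_bool]
  simp only [Params.coefS, smallLetter, Sum.map_inl, Sum.map_inr, Sum.elim_inl, Sum.elim_inr,
    id, ite_smul, one_smul, zero_smul, Finset.sum_ite_eq', Finset.mem_univ, if_true]
  induction i using Fin.addCases with
  | left i =>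
    simp only [Fin.addCases_left, Params.kSub, Sum.elim_inl, Sum.elim_inr, p.Y_eq, Params.base]
    by_cases hi : i = 0 <;> simp [hi, smul_add, smul_smul, mul_comm]
  | right e => simp [Params.kSub]

/-- A functional of letters read on words in the tuple. -/
def Params.ext : (List (ℤ ⊕ Fin (2 + p.n)) → ℂ) → List (Fin (2 + p.n)) → ℂ
  | F, [] => F []
  | F, i :: u => ∑ x, p.coefS i x * Params.ext (fun w => F (smallLetter x :: w)) u

theorem Params.ext_smul (c : ℂ) : ∀ (u : List (Fin (2 + p.n)))
    (F : List (ℤ ⊕ Fin (2 + p.n)) → ℂ), p.ext (fun w => c * F w) u = c * p.ext F u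
  | [], F => rfl
  | i :: u, F => by
    simp only [Params.ext, Params.ext_smul c u, Finset.mul_sum]
    exact Finset.sum_congr rfl fun x _ => by ring

theorem Params.ext_add : ∀ (u : List (Fin (2 + p.n))) (F G : List (ℤ ⊕ Fin (2 + p.n)) → ℂ),
    p.ext (fun w => F w + G w) u = p.ext F u + p.ext G u
  | [], F, G => rfl
  | i :: u, F, G => by
    simp only [Params.ext, Params.ext_add u, mul_add, Finset.sum_add_distrib]

theorem Params.ext_zero (u : List (Fin (2 + p.n))) : p.ext (fun _ => 0) u = 0 := by
  simpa using p.ext_smul 0 u fun _ => 0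

theorem Params.ext_tauL : ∀ (u : List (Fin (2 + p.n))) (A : Poly p.Noise),
    p.ext (fun w => tauL (A * (w.map (p.kSub t)).prod)) u = tauL (A * (u.map (p.Y t)).prod)
  | [], A => by simp [Params.ext]
  | i :: u, A => by
    simp only [Params.ext, List.map_cons, List.prod_cons, ← mul_assoc, Params.ext_tauL u,
      p.Y_eq_sum t i, Finset.mul_sum, Finset.sum_mul, map_sum, mul_smul_comm, smul_mul_assoc,
      map_smul, smul_eq_mul]

theorem Params.ext_kM (u : List (Fin (2 + p.n))) : p.ext (p.kM t) u = p.law t u := by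
  have h := p.ext_tauL t u 1
  simp only [one_mul] at h
  exact h

theorem spl_finsetSum {α β : Type*} (s : Finset β) (h : β → List α → α → List α → ℂ)
    (w : List α) : spl (fun a x c => ∑ y ∈ s, h y a x c) w = ∑ y ∈ s, spl (h y) w := by
  simp only [← Cum.sum_fin_eq_spl]
  exact Finset.sum_comm

theorem Params.ext_spl : ∀ (u : List (Fin (2 + p.n)))
    (φ ψ : ℤ ⊕ Fin (2 + p.n) → List (ℤ ⊕ Fin (2 + p.n)) → ℂ),
    p.ext (spl fun a x c => φ x a * ψ x c) u = spl (fun a i c => ∑ x,
      p.coefS i x * (p.ext (φ (smallLetter x)) a * p.ext (ψ (smallLetter x)) c)) u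
  | [], φ, ψ => by simp [Params.ext, Cum.spl]
  | i :: u, φ, ψ => by
    simp only [Cum.spl, Params.ext, p.ext_add, p.ext_smul, mul_add, Finset.sum_add_distrib]
    congr 1
    have h : ∀ y, p.ext (fun w => spl (fun a x c => φ x (smallLetter y :: a) * ψ x c) w) u = _ :=
      fun y => Params.ext_spl u (fun x a => φ x (smallLetter y :: a)) ψ
    simp only [h, Cum.mul_spl, ← spl_finsetSum]
    refine Cum.spl_congr u fun a j c _ => ?_
    simp only [Finset.mul_sum, Finset.sum_mul]
    rw [Finset.sum_comm]
    exact Finset.sum_congr rfl fun x _ => Finset.sum_congr rfl fun y _ => by ring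

theorem Params.ext_gapExp (F : List (ℤ ⊕ Fin (2 + p.n)) → ℂ) (u : List (Fin (2 + p.n))) :
    p.ext (gapExp (p.kM t) F) u = gapExp (p.law t) (p.ext F) u := by
  induction h : u.length using Nat.strong_induction_on generalizing u F with
  | _ n ih =>
    subst h
    rw [show gapExp (p.kM t) F = fun w => F [] * p.kM t w +
      spl (fun a x c => p.kM t a * gapExp (p.kM t) (fun S => F (x :: S)) c) w from
        funext (Cum.gapExp_eq _ F)]
    rw [p.ext_add, p.ext_smul, p.ext_kM,
      p.ext_spl u (fun _ => p.kM t) fun x => gapExp (p.kM t) fun S => F (x :: S),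
      Cum.gapExp_eq _ (p.ext F)]
    congr 1
    refine Cum.spl_congr u fun a i c e => ?_
    have hc := (Cum.len_of_split e).2
    rw [show (fun S => p.ext F (i :: S)) = fun S => ∑ x, p.coefS i x *
      p.ext (fun w => F (smallLetter x :: w)) S from rfl, gapExp_finsetSum, Finset.mul_sum]
    refine Finset.sum_congr rfl fun x _ => ?_
    rw [gapExp_smul, ← ih _ hc (fun w => F (smallLetter x :: w)) c rfl, p.ext_kM]
    ring

/-- The cumulants after `U^d`, read on words in the tuple. -/
def Params.H (d : ℤ) : List (Fin (2 + p.n)) → ℂ :=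
  p.ext fun S => cumK p.gK (p.vK t) (Sum.inl d :: S)

theorem Params.ext_shift {d : ℤ} (hd : d ≠ 0) (u : List (Fin (2 + p.n))) :
    p.ext (fun w => p.kM t (Sum.inl d :: w)) u = gapExp (p.law t) (p.H t d) u := by
  rw [Params.H, ← p.ext_gapExp]
  congr 1
  exact funext fun w => (p.kM_cumRules t).expansion d hd w

/-- First cross factor. -/
def Params.crossL (e : Fin p.n) : Fin (2 + p.n) → List (Fin (2 + p.n)) → ℂ :=
  Fin.addCases (fun _ _ => 0) fun f => if f = e then fun _ => 0 else p.H t (p.g f - p.g e)

/-- Second cross factor. -/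
def Params.crossR (e : Fin p.n) : Fin (2 + p.n) → List (Fin (2 + p.n)) → ℂ :=
  Fin.addCases (fun _ _ => 0) fun f => if f = e then fun _ => 0 else p.H t (p.g e - p.g f)

/-- The cross terms. -/
def Params.cross (e : Fin p.n) : List (Fin (2 + p.n)) → ℂ :=
  spl fun a i c => p.crossL t e i a * p.crossR t e i c

theorem Params.law_conj_cons (e : Fin p.n) (hg : ∀ f, f ≠ e → p.g f ≠ p.g e)
    (u : List (Fin (2 + p.n))) :
    p.law t (Fin.natAdd 2 e :: u) =
      (1 + p.cov t (Fin.natAdd 2 e)) *
        gapExp (p.law t) (fun S => if S = [Fin.natAdd 2 e] then 1 else 0) u +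
      gapExp (p.law t) (p.cross t e) u := by
  set j := Fin.natAdd 2 e with hj
  have h1 : p.law t (j :: u) = p.ext (fun w => p.kM t (Sum.inr j :: w)) u := by
    simp only [p.kM_cons, p.ext_tauL]
    simp [Params.law, Params.kSub, hj]
  have h2 : gapExp (p.law t) (fun S => if S = [j] then 1 else 0) u =
      spl (fun a i c => if i = j then p.law t a * p.law t c else 0) u := by
    rw [← p.dqPair_eq, dqPair]
    exact Cum.sum_fin_eq_spl u fun a i c => if i = j then p.law t a * p.law t c else 0
  rw [h1, h2, Params.cross,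
    Cum.gapExp_split _ u.length u (p.crossL t e) (p.crossR t e) le_rfl,
    Cum.mul_spl, ← Cum.spl_add, show (fun w => p.kM t (Sum.inr j :: w)) =
      spl (fun a x c => p.phiR t e x a * p.psiR t e x c) from funext (p.kM_right t e), p.ext_spl]
  refine Cum.spl_congr u fun a i c _ => ?_
  rw [Fintype.sum_sum_type]
  simp only [smallLetter, Sum.map_inl, Sum.map_inr, id, Params.coefS, Sum.elim_inl, Sum.elim_inr]
  simp only [Params.phiR, Params.psiR, Sum.elim_inl, Sum.elim_inr, p.ext_zero, mul_zero,
    Finset.sum_const_zero, zero_add, ite_mul, one_mul, zero_mul, Finset.sum_ite_eq',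
    Finset.mem_univ, if_true]
  induction i using Fin.addCases with
  | left i =>
    simp [hj, Params.crossL, p.ext_zero, gapExp_zero_fun, Fin.ext_iff, show (i : ℕ) ≠ 2 + e by omega]
  | right f =>
    simp only [Fin.addCases_right, Params.crossL, Params.crossR, hj,
      (Fin.natAdd_injective p.n 2).eq_iff]
    by_cases hf : f = e
    · subst hf
      simp only [if_true, gapExp_zero_fun, zero_mul, add_zero, p.ext_smul]
      rw [p.ext_kM, p.ext_kM]
      ring
    · simp only [if_neg hf]
      rw [p.ext_shift t (sub_ne_zero.2 (hg f hf)), p.ext_shift t (sub_ne_zero.2 (Ne.symm (hg f hf)))]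
      ring

end

end VAgent.P087
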