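import Mathlib
import Vale.Agent.P087.Star.Cross

/-!
# P087: the cross terms are small
-/

namespace VAgent.P087

open Cum (spl wsum)

noncomputable section

variable (p : Params) (t : ℝ)

theorem Params.gK_eq_some {i : Fin (2 + p.n)} {a : ℤ} (h : p.gK i = some a) :
    ∃ e, i = Fin.natAdd 2 e ∧ a = p.g e := by
  induction i using Fin.addCases with
  | left i => simp [Params.gK] at h
  | right e => exact ⟨e, rfl, by simpa [Params.gK] using h.symm⟩

theorem Params.sum_norm_coefS (hθ : 0 ≤ p.θ) {ρ : ℝ} (x : Bool ⊕ Fin (2 + p.n)) :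
    ∑ i, ρ * ‖p.coefS i x‖ = smallWeight (2 * p.θ * ρ) ρ x := by
  rcases x with b | k
  · have hb : ‖if b then -Complex.I else Complex.I‖ = 1 := by cases b <;> simp
    simp only [Params.coefS, Sum.elim_inl, Fin.sum_univ_add, Fin.addCases_left, Fin.addCases_right,
      norm_zero, mul_zero, Finset.sum_const_zero, add_zero, Fin.sum_univ_two, smallWeight]
    simp only [if_true, show ((1 : Fin 2) = 0) = False by simp, if_false, norm_mul, hb, mul_one,
      Complex.norm_real, Real.norm_of_nonneg hθ]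
    ring
  · simp only [Params.coefS, smallWeight, Sum.elim_inr]
    rw [Finset.sum_eq_single k]
    · simp
    · intro i _ hi
      simp [Ne.symm hi]
    · simp

theorem Params.ext_wsum_le (hθ : 0 ≤ p.θ) {ρ : ℝ} (hρ : 0 ≤ ρ) :
    ∀ (L : ℕ) (F : List (ℤ ⊕ Fin (2 + p.n)) → ℂ),
      wsum (fun _ => ρ) L (fun u => ‖p.ext F u‖) ≤
        wsum (smallWeight (2 * p.θ * ρ) ρ) L (fun w => ‖F (w.map smallLetter)‖) := by
  intro L
  induction L with
  | zero => intro F; simp [Cum.wsum, Params.ext]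
  | succ L ih =>
    intro F
    simp only [Cum.wsum, Params.ext, List.map_nil, List.map_cons]
    refine add_le_add le_rfl ?_
    calc ∑ i, ρ * wsum (fun _ => ρ) L
          (fun u => ‖∑ x, p.coefS i x * p.ext (fun w => F (smallLetter x :: w)) u‖)
        ≤ ∑ i, ρ * ∑ x, ‖p.coefS i x‖ * wsum (smallWeight (2 * p.θ * ρ) ρ) L
            (fun w => ‖F (smallLetter x :: w.map smallLetter)‖) := by
          refine Finset.sum_le_sum fun i _ => mul_le_mul_of_nonneg_left ?_ hρ
          refine (Cum.wsum_mono (fun _ => hρ) L _ _ fun u => (norm_sum_le _ _).trans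
            (le_of_eq (Finset.sum_congr rfl fun x _ => norm_mul _ _))).trans ?_
          rw [Cum.wsum_sum]
          refine Finset.sum_le_sum fun x _ => ?_
          rw [Cum.wsum_smul]
          exact mul_le_mul_of_nonneg_left (ih _) (norm_nonneg _)
      _ = _ := by
          simp only [Finset.mul_sum]
          rw [Finset.sum_comm]
          refine Finset.sum_congr rfl fun x _ => ?_
          rw [← p.sum_norm_coefS hθ x, Finset.sum_mul]
          exact Finset.sum_congr rfl fun i _ => by ring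

/-- The size of the cumulant after `U^d` at a small word. -/
def Params.small (d : ℤ) (w : List (Bool ⊕ Fin (2 + p.n))) : ℝ :=
  ‖cumK p.gK (p.vK t) (Sum.inl d :: w.map smallLetter)‖

theorem Params.small_eq {d : ℤ} (hd : d ≠ 0) (w : List (Bool ⊕ Fin (2 + p.n))) :
    p.small t d w = if d = -expSum (w.map smallLetter) then F0 p.gK (p.vK t) w else 0 := by
  split_ifs with h
  · have hw : w ≠ [] := by
      rintro rfl
      exact hd (by simpa [expSum] using h)
    simp [Params.small, F0, hw, K0, h]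
  · refine norm_eq_zero.2 (by_contra fun hne => h ?_)
    have := cumK_charge p.gK (p.vK t) d _ hne
    omega

theorem Params.small_le {d : ℤ} (hd : d ≠ 0) (w : List (Bool ⊕ Fin (2 + p.n))) :
    p.small t d w ≤ F0 p.gK (p.vK t) w := by
  rw [p.small_eq t hd]
  split_ifs
  · exact le_rfl
  · exact F0_nonneg _ _ _

variable (hS : ∀ e f e' f' : Fin p.n, e ≠ f → p.g f - p.g e = p.g f' - p.g e' → e = e' ∧ f = f')

include hS in
theorem Params.g_ne {e f : Fin p.n} (h : f ≠ e) : p.g f ≠ p.g e := fun h' =>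
  h (hS e f f e h.symm (by rw [h'])).2

include hS in
theorem Params.sum_small_le (e : Fin p.n) (w : List (Bool ⊕ Fin (2 + p.n))) :
    ∑ f ∈ Finset.univ.filter (· ≠ e), p.small t (p.g f - p.g e) w ≤ F0 p.gK (p.vK t) w := by
  rw [Finset.sum_congr rfl fun f hf => p.small_eq t
    (sub_ne_zero.2 (p.g_ne hS (Finset.mem_filter.1 hf).2)) w]
  rw [← Finset.sum_filter, Finset.sum_const]
  have hc : ((Finset.univ.filter (· ≠ e)).filter
      fun f => p.g f - p.g e = -expSum (w.map smallLetter)).card ≤ 1 := by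
    refine Finset.card_le_one.2 fun a ha b hb => ?_
    simp only [Finset.mem_filter, Finset.mem_univ, true_and] at ha hb
    exact (hS e a e b (Ne.symm ha.1) (ha.2.trans hb.2.symm)).2
  have h0 := F0_nonneg p.gK (p.vK t) w
  rcases Nat.le_one_iff_eq_zero_or_eq_one.1 hc with h | h <;> rw [h] <;> simp [h0]

include hS in
theorem Params.wsum_F0_le {σ ρ : ℝ} (hσ : 0 ≤ σ) (hσ' : σ ≤ 1 / 200) (hρ : 0 ≤ ρ)
    (hρ' : ρ ^ 2 ≤ 1 / 1000) (L : ℕ) :
    wsum (smallWeight σ ρ) L (F0 p.gK (p.vK t)) ≤ 40 * σ := by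
  refine (wsum_K0_le p.gK (p.vK t) ?_ ?_ hσ hσ' hρ hρ' L).2
  · intro i k δ h
    obtain ⟨hne, a, b, ha, hb, rfl⟩ := jump_eq_some h
    obtain ⟨e, rfl, rfl⟩ := p.gK_eq_some ha
    obtain ⟨f, rfl, rfl⟩ := p.gK_eq_some hb
    exact sub_ne_zero.2 (p.g_ne hS fun h => hne (by rw [h]))
  · intro i k i' k' δ h h'
    obtain ⟨hne, a, b, ha, hb, rfl⟩ := jump_eq_some h
    obtain ⟨_, a', b', ha', hb', hd⟩ := jump_eq_some h'
    obtain ⟨e, rfl, rfl⟩ := p.gK_eq_some ha
    obtain ⟨f, rfl, rfl⟩ := p.gK_eq_some hb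
    obtain ⟨e', rfl, rfl⟩ := p.gK_eq_some ha'
    obtain ⟨f', rfl, rfl⟩ := p.gK_eq_some hb'
    obtain ⟨rfl, rfl⟩ := hS e f e' f' (fun h => hne (by rw [h])) hd
    exact ⟨rfl, rfl⟩

include hS in
theorem Params.wsum_cross_le (hθ : 0 ≤ p.θ) {ρ : ℝ} (hρ : 0 ≤ ρ) (hρ' : ρ ^ 2 ≤ 1 / 1000)
    (hσ' : 2 * p.θ * ρ ≤ 1 / 200) (e : Fin p.n) (L : ℕ) :
    wsum (fun _ => ρ) L (fun S => ‖p.cross t e S‖) ≤ ρ * (40 * (2 * p.θ * ρ)) ^ 2 := by
  set σ := 2 * p.θ * ρ with hσdef
  have hσ : 0 ≤ σ := by positivity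
  have hw : ∀ x : Bool ⊕ Fin (2 + p.n), 0 ≤ smallWeight σ ρ x := by
    rintro (b | k) <;> simp [smallWeight, hσ, hρ]
  set Φ : ℤ → ℝ := fun d => wsum (fun _ => ρ) L fun u => ‖p.H t d u‖ with hΦ
  have hΦ0 : ∀ d, 0 ≤ Φ d := fun d => Cum.wsum_nonneg (fun _ => hρ) L _ fun u => norm_nonneg _
  have hΦs : ∀ d, Φ d ≤ wsum (smallWeight σ ρ) L (p.small t d) := fun d =>
    p.ext_wsum_le hθ hρ L _
  have hone : ∀ d, d ≠ 0 → Φ d ≤ 40 * σ := fun d hd => (hΦs d).trans
    ((Cum.wsum_mono hw L _ _ (p.small_le t hd)).trans (p.wsum_F0_le t hS hσ hσ' hρ hρ' L))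
  have hsum : ∑ f ∈ Finset.univ.filter (· ≠ e), Φ (p.g f - p.g e) ≤ 40 * σ :=
    (Finset.sum_le_sum fun f _ => hΦs _).trans (le_trans (le_of_eq (Cum.wsum_sum _ _ _).symm)
      ((Cum.wsum_mono hw L _ _ (p.sum_small_le t hS e)).trans
        (p.wsum_F0_le t hS hσ hσ' hρ hρ' L)))
  calc wsum (fun _ => ρ) L (fun S => ‖p.cross t e S‖)
      ≤ wsum (fun _ => ρ) L (fun S => spl (fun a i c =>
          ‖p.crossL t e i a‖ * ‖p.crossR t e i c‖) S) :=
        Cum.wsum_mono (fun _ => hρ) L _ _ fun S => (Cum.norm_spl_le S _).trans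
          (le_of_eq (Cum.spl_congr S fun a i c _ => norm_mul _ _))
    _ ≤ ∑ i, ρ * (wsum (fun _ => ρ) L (fun a => ‖p.crossL t e i a‖) *
          wsum (fun _ => ρ) L (fun c => ‖p.crossR t e i c‖)) :=
        Cum.wsum_split_le (fun _ => hρ) L _ _ (fun _ _ => norm_nonneg _) fun _ _ => norm_nonneg _
    _ = ∑ f ∈ Finset.univ.filter (· ≠ e), ρ * (Φ (p.g f - p.g e) * Φ (p.g e - p.g f)) := by
        have hz : wsum (fun _ : Fin (2 + p.n) => ρ) L (fun _ => (0 : ℝ)) = 0 := by
          simpa using Cum.wsum_smul (wt := fun _ : Fin (2 + p.n) => ρ) 0 L fun _ => 0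
        rw [Fin.sum_univ_add, Finset.sum_eq_zero (fun i _ => ?_), zero_add, Finset.sum_filter]
        · refine Finset.sum_congr rfl fun f _ => ?_
          simp only [Params.crossL, Params.crossR, Fin.addCases_right]
          by_cases hf : f = e
          · simp [hf, hz]
          · simp [hf, hΦ]
        · simp [Params.crossL, hz]
    _ ≤ ∑ f ∈ Finset.univ.filter (· ≠ e), ρ * (Φ (p.g f - p.g e) * (40 * σ)) := by
        refine Finset.sum_le_sum fun f hf => mul_le_mul_of_nonneg_left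
          (mul_le_mul_of_nonneg_left (hone _ ?_) (hΦ0 _)) hρ
        exact sub_ne_zero.2 (p.g_ne hS (Finset.mem_filter.1 hf).2).symm
    _ ≤ ρ * (40 * σ) ^ 2 := by
        rw [← Finset.mul_sum, ← Finset.sum_mul, sq]
        exact mul_le_mul_of_nonneg_left (mul_le_mul_of_nonneg_right hsum (by positivity)) hρ

theorem Params.gapForm_le (hv : ∀ i, 0 < p.v i) (ht : 0 < t) {δ : ℝ}
    (F : List (Fin (2 + p.n)) → ℂ)
    (hF : ∀ L, wsum (fun _ => (Real.sqrt t)⁻¹) L (fun S => ‖F S‖) ≤ δ)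
    (P : List (Fin (2 + p.n)) →₀ ℂ) :
    ‖p.gapForm t F P‖ ≤ δ * Real.sqrt (p.quadForm t P) := by
  set ρ := (Real.sqrt t)⁻¹
  set L := P.support.sup List.length
  have hF' : ∀ S : List (Fin (2 + p.n)), S.length ≤ L →
      F S = ∑ q ∈ Finset.range (L + 1), ∑ w : Fin q → Fin (2 + p.n),
        F (List.ofFn w) * (if S = List.ofFn w then 1 else 0) := by
    intro S hS'
    rw [Finset.sum_eq_single S.length]
    · rw [Finset.sum_eq_single (fun i => S.get i)]
      · simp [List.ofFn_getElem]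
      · intro w _ hw
        rw [if_neg, mul_zero]
        intro h
        refine hw (List.ofFn_injective ?_)
        simp [← h, List.ofFn_getElem]
      · simp
    · intro q _ hq
      refine Finset.sum_eq_zero fun w _ => ?_
      rw [if_neg, mul_zero]
      intro h
      exact hq (by simp [h])
    · intro h
      exact absurd (Finset.mem_range.2 (by omega)) h
  have hsum : p.gapForm t F P = ∑ q ∈ Finset.range (L + 1), ∑ w : Fin q → Fin (2 + p.n),
      F (List.ofFn w) * p.gapForm t (fun S => if S = List.ofFn w then 1 else 0) P := by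
    simp only [Params.gapForm, Finset.mul_sum]
    rw [Finset.sum_congr rfl fun q _ => Finset.sum_comm, Finset.sum_comm]
    refine Finset.sum_congr rfl fun u hu => ?_
    rw [gapExp_congr (p.law t) (fun S hS' => hF' S (hS'.trans (Finset.le_sup hu))),
      gapExp_finsetSum, Finset.mul_sum]
    refine Finset.sum_congr rfl fun q _ => ?_
    rw [gapExp_finsetSum, Finset.mul_sum]
    refine Finset.sum_congr rfl fun w _ => ?_
    rw [gapExp_smul]
    ring
  rw [hsum]
  calc _ ≤ ∑ q ∈ Finset.range (L + 1), ∑ w : Fin q → Fin (2 + p.n),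
        ‖F (List.ofFn w) * p.gapForm t (fun S => if S = List.ofFn w then 1 else 0) P‖ :=
        (norm_sum_le _ _).trans (Finset.sum_le_sum fun q _ => norm_sum_le _ _)
    _ ≤ ∑ q ∈ Finset.range (L + 1), ∑ w : Fin q → Fin (2 + p.n),
        ((∏ _i : Fin q, ρ) * ‖F (List.ofFn w)‖) * Real.sqrt (p.quadForm t P) := by
        refine Finset.sum_le_sum fun q _ => Finset.sum_le_sum fun w _ => ?_
        rw [norm_mul, mul_comm (∏ _i : Fin q, ρ), mul_assoc]
        refine mul_le_mul_of_nonneg_left ((p.gapForm_delta_le t hv ht.le _ P).trans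
          (mul_le_mul_of_nonneg_right ?_ (Real.sqrt_nonneg _))) (norm_nonneg _)
        rw [List.map_ofFn, List.prod_ofFn]
        refine Finset.prod_le_prod (fun i _ => inv_nonneg.2 (Real.sqrt_nonneg _)) fun i _ => ?_
        exact inv_anti₀ (Real.sqrt_pos.2 ht) (Real.sqrt_le_sqrt (by linarith [hv (w i)]))
    _ ≤ δ * Real.sqrt (p.quadForm t P) := by
        simp only [← Finset.sum_mul]
        refine mul_le_mul_of_nonneg_right ?_ (Real.sqrt_nonneg _)
        have h := hF L
        rw [Cum.wsum_eq] at h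
        exact h

end

end VAgent.P087
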