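import Mathlib
import Vale.Agent.P087.Star.Fisher
import Vale.Agent.P087.Star.CrossBound

/-!
# P087: at times in `[1000, 2000]` the conjugates look free
-/

namespace VAgent.P087

noncomputable section

/-- Small unitary weight, noise of variance at most one, Sidon exponents. -/
structure Params.Good (p : Params) : Prop where
  θ_pos : 0 < p.θ
  θ_le : p.θ ≤ 1 / 10000
  v_pos : ∀ i, 0 < p.v i
  v_le : ∀ i, p.v i ≤ 1
  sidon : ∀ e f e' f' : Fin p.n, e ≠ f → p.g f - p.g e = p.g f' - p.g e' → e = e' ∧ f = f'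

theorem Params.fisherTerm_conj_le (p : Params) (hp : p.Good) {t : ℝ} (ht : 1000 ≤ t)
    (_ht' : t ≤ 2000) (e : Fin p.n) :
    p.fisherTerm t (Fin.natAdd 2 e) ≤
      ENNReal.ofReal ((1 + 1 / 10 ^ 7) / (1 + p.v (Fin.natAdd 2 e) + t)) := by
  set j := Fin.natAdd 2 e with hj
  set s := 1 + p.v j + t with hs
  have ht0 : 0 < t := by linarith
  have hvj := hp.v_pos j
  have hs1 : 1 ≤ s := by linarith
  have hcov : 1 + p.cov t j = ((s : ℝ) : ℂ) := by
    rw [p.cov_eq t hvj.le ht0.le, hs]
    push_cast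
    ring
  have hg : ∀ f, f ≠ e → p.g f ≠ p.g e := fun f h => p.g_ne hp.sidon h
  have hcons : ∀ u, p.law t (j :: u) = (s : ℂ) *
      gapExp (p.law t) (fun S => if S = [j] then 1 else 0) u +
        gapExp (p.law t) (p.cross t e) u := fun u => by
    rw [← hcov]
    exact p.law_conj_cons t e hg u
  set ρ := (Real.sqrt t)⁻¹ with hρdef
  have hρ0 : 0 ≤ ρ := by positivity
  have hρ2 : ρ ^ 2 ≤ 1 / 1000 := by
    rw [hρdef, inv_pow, Real.sq_sqrt ht0.le, one_div]
    exact inv_anti₀ (by norm_num) ht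
  have hρ1 : ρ ≤ 1 / 31 := by nlinarith
  set δ := ρ * (40 * (2 * p.θ * ρ)) ^ 2 with hδdef
  have hθρ : p.θ * ρ ≤ 1 / 10000 * (1 / 31) :=
    mul_le_mul hp.θ_le hρ1 hρ0 (by norm_num)
  have hθρ0 : 0 ≤ p.θ * ρ := mul_nonneg hp.θ_pos.le hρ0
  have hδ0 : 0 ≤ δ := by positivity
  have hδ : δ ≤ 1 / 10 ^ 8 := by
    have h1 : (40 * (2 * p.θ * ρ)) ^ 2 ≤ (80 * (1 / 10000 * (1 / 31))) ^ 2 := by
      refine pow_le_pow_left₀ (by linarith) ?_ 2
      linarith
    refine (mul_le_mul hρ1 h1 (by positivity) (by norm_num)).trans (by norm_num)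
  have hR := p.gapForm_le t hp.v_pos ht0 (p.cross t e)
    (fun L => p.wsum_cross_le t hp.sidon hp.θ_pos.le hρ0 hρ2 (by linarith) e L)
  have hbound : ∀ P, ‖p.gapForm t (fun S => if S = [j] then 1 else 0) P‖ ≤
      (Real.sqrt s + δ) / s * Real.sqrt (p.quadForm t P) := by
    intro P
    have hlin : tauL (p.Y t j * p.polyEval t P) =
        (s : ℂ) * p.gapForm t (fun S => if S = [j] then 1 else 0) P +
          p.gapForm t (p.cross t e) P := by
      simp only [Params.polyEval, Params.gapForm, Finset.mul_sum, map_sum, mul_smul_comm,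
        map_smul, smul_eq_mul, ← Finset.sum_add_distrib]
      refine Finset.sum_congr rfl fun u _ => ?_
      have h := hcons u
      simp only [Params.law, List.map_cons, List.prod_cons] at h
      rw [h]
      ring
    have hjj : (tauL (p.Y t j * p.Y t j)).re = s := by
      have h := hcons [j]
      have h0 : gapExp (p.law t) (p.cross t e) [j] = 0 := by
        simp [Cum.gapExp_eq, Cum.spl, Params.cross, Params.crossL, hj]
      have h1 : gapExp (p.law t) (fun S => if S = [j] then 1 else 0) [j] = 1 := by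
        simp [Cum.gapExp_eq, Cum.spl, Params.law, tauL_one]
      rw [h0, h1] at h
      simp only [Params.law, List.map_cons, List.map_nil, List.prod_cons, List.prod_nil, mul_one,
        add_zero] at h
      rw [h, Complex.ofReal_re]
    have hcs : ‖tauL (p.Y t j * p.polyEval t P)‖ ≤ Real.sqrt s * Real.sqrt (p.quadForm t P) := by
      have h := tauL_cauchy_schwarz (p.Y t j) (p.polyEval t P)
      rw [p.adj_Y, hjj, p.tauL_adj_polyEval] at h
      rw [← Real.sqrt_mul (by linarith : (0 : ℝ) ≤ s), ← Real.sqrt_sq (norm_nonneg _)]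
      exact Real.sqrt_le_sqrt h
    rw [div_mul_eq_mul_div, le_div_iff₀ (by linarith : (0 : ℝ) < s), add_mul]
    have h2 : (s : ℂ) * p.gapForm t (fun S => if S = [j] then 1 else 0) P =
        tauL (p.Y t j * p.polyEval t P) - p.gapForm t (p.cross t e) P := by rw [hlin]; ring
    calc _ = ‖(s : ℂ) * p.gapForm t (fun S => if S = [j] then 1 else 0) P‖ := by
          rw [norm_mul, Complex.norm_real, Real.norm_of_nonneg (by linarith : (0 : ℝ) ≤ s),
            mul_comm]
      _ ≤ _ := by
          rw [h2]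
          exact (norm_sub_le _ _).trans (add_le_add hcs (hR P))
  refine (p.fisherTerm_le_of_bound t (by positivity) j hbound).trans (ENNReal.ofReal_le_ofReal ?_)
  have hsq : 1 ≤ Real.sqrt s := Real.one_le_sqrt.2 hs1
  have hsq2 := Real.sq_sqrt (by linarith : (0 : ℝ) ≤ s)
  rw [div_pow, div_le_div_iff₀ (by positivity) (by linarith)]
  have key : (Real.sqrt s + δ) ^ 2 ≤ (1 + 1 / 10 ^ 7) * s := by nlinarith
  nlinarith

end

end VAgent.P087
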